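import Vale.Agent.P365.Open.Circ
import Vale.Agent.P365.T2.DerivS755

set_option linter.all false

/-!
# P365 T2, (LOG): the logarithmic excess on the circle of one resolvent entry

`t(v) = 1/(v - s)`, `A(v) = ∑ w_j ‖p_j + q_j t(v)‖²`, `A₀` its circle mean.  If
`0 ≤ L ≤ X` and `L ≤ c₁ + log⁺ (A₀ / A)`, then for the smooth law `nuS`
`∫ ‖t‖² L ≤ 4 π (c₁ + 2 log 2) ∫ ‖t‖² + C (1 + c₁ + X) / (1 + ‖s‖²)`.
-/

namespace P365T2.H720.LogC

open MeasureTheory ProbabilityTheory Complex Set P365L P365O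
open scoped ENNReal NNReal Real

/-- the point of the circle -/
noncomputable def uc (x : ℝ) : ℂ := ((x : ℂ) + I) / ((x : ℂ) - I)

theorem norm_uc (x : ℝ) : ‖uc x‖ = 1 := by
  unfold uc
  rw [← circle_cphi, norm_circleMap_zero]
  simp

theorem nu_ac : nu ≪ (volume : Measure ℝ) := by
  have h1 : nu = volume.withDensity (cauchyPDF 0 1) :=
    cauchyMeasure_of_scale_ne_zero 0 one_ne_zero
  rw [h1]
  exact withDensity_absolutelyContinuous _ _

theorem ae_ne {p r : ℂ} (h : ¬ (p = 0 ∧ r = 0)) : ∀ᵐ x ∂nu, p - r * uc x ≠ 0 := by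
  have hsub : ({x : ℝ | p - r * uc x = 0}).Subsingleton := by
    intro s hs t ht
    simp only [Set.mem_setOf_eq, uc] at hs ht
    have hr0 : r ≠ 0 := by
      rintro h0
      rw [h0, zero_mul, sub_zero] at hs
      exact h ⟨hs, h0⟩
    have h1 : ((s : ℂ) + I) / ((s : ℂ) - I) = ((t : ℂ) + I) / ((t : ℂ) - I) := by
      have h2 : r * (((s : ℂ) + I) / ((s : ℂ) - I)) = r * (((t : ℂ) + I) / ((t : ℂ) - I)) := by
        rw [← sub_eq_zero.1 hs, ← sub_eq_zero.1 ht]
      exact mul_left_cancel₀ hr0 h2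
    have hds : (s : ℂ) - I ≠ 0 := cau_sub_ne (by simp) s
    have hdt : (t : ℂ) - I ≠ 0 := cau_sub_ne (by simp) t
    rw [div_eq_div_iff hds hdt] at h1
    have h3 : (2 * I) * ((s : ℂ) - t) = 0 := by linear_combination -h1
    have h4 : (s : ℂ) - t = 0 := by
      rcases mul_eq_zero.1 h3 with h | h
      · exact absurd h (by simp)
      · exact h
    exact_mod_cast sub_eq_zero.1 h4
  have hvol : (volume : Measure ℝ) {x : ℝ | p - r * uc x = 0} = 0 := hsub.measure_zero _
  have h2 := nu_ac hvol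
  rw [ae_iff]
  simpa using h2

/-- logarithmic mean of an affine function on the circle -/
theorem int_log {p r : ℂ} (h : ¬ (p = 0 ∧ r = 0)) :
    Integrable (fun x => Real.log ‖p - r * uc x‖) nu ∧
      Real.log ((‖p‖ ^ 2 + ‖r‖ ^ 2) / 2) ≤ 2 * ∫ x, Real.log ‖p - r * uc x‖ ∂nu := by
  have hint : CircleIntegrable (fun u => Real.log ‖p - r * u‖) 0 1 :=
    MeromorphicOn.circleIntegrable_log_norm fun z _ => by fun_prop
  have i1 := nu_integrable_circle hint
  refine ⟨i1, ?_⟩
  have e1 : ∫ x, Real.log ‖p - r * uc x‖ ∂nu =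
      Real.circleAverage (fun u => Real.log ‖p - r * u‖) 0 1 :=
    nu_integral_circle (fun u => Real.log ‖p - r * u‖)
  rw [e1]
  by_cases hp : p = 0
  · have hr : r ≠ 0 := fun hr => h ⟨hp, hr⟩
    have hrn : 0 < ‖r‖ := norm_pos_iff.2 hr
    have e2 : Real.circleAverage (fun u => Real.log ‖p - r * u‖) 0 1 = Real.log ‖r‖ := by
      rw [← Real.circleAverage_const (Real.log ‖r‖) (0:ℂ) 1]
      refine Eq.trans (Real.circleAverage_congr_sphere (f₂ := fun _ => Real.log ‖r‖)
        fun z hz => ?_) ?_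
      · rw [abs_one, mem_sphere_zero_iff_norm] at hz
        simp only [hp, zero_sub, norm_neg, norm_mul, hz, mul_one]
      · rw [Real.circleAverage_const]
    rw [e2, hp, norm_zero]
    have h2 : 2 * Real.log ‖r‖ = Real.log (‖r‖ ^ 2) := by
      rw [Real.log_pow]; norm_num
    rw [h2]
    refine Real.log_le_log (by positivity) ?_
    nlinarith [sq_nonneg ‖r‖]
  · have hpn : 0 < ‖p‖ := norm_pos_iff.2 hp
    rw [avg_log_affine hp]
    have h2 : 2 * Real.log ‖p‖ = Real.log (‖p‖ ^ 2) := by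
      rw [Real.log_pow]; norm_num
    rcases le_total ‖r‖ ‖p‖ with hrp | hrp
    · have h3 : 0 ≤ Real.posLog (‖r‖ / ‖p‖) := Real.posLog_nonneg
      have h4 : Real.log ((‖p‖ ^ 2 + ‖r‖ ^ 2) / 2) ≤ Real.log (‖p‖ ^ 2) := by
        refine Real.log_le_log (by positivity) ?_
        have := pow_le_pow_left₀ (norm_nonneg r) hrp 2
        linarith
      linarith
    · have hrn : 0 < ‖r‖ := hpn.trans_le hrp
      have h3 : Real.log (‖r‖ / ‖p‖) ≤ Real.posLog (‖r‖ / ‖p‖) := le_max_right _ _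
      rw [Real.log_div hrn.ne' hpn.ne'] at h3
      have h5 : 2 * Real.log ‖r‖ = Real.log (‖r‖ ^ 2) := by
        rw [Real.log_pow]; norm_num
      have h4 : Real.log ((‖p‖ ^ 2 + ‖r‖ ^ 2) / 2) ≤ Real.log (‖r‖ ^ 2) := by
        refine Real.log_le_log (by positivity) ?_
        have := pow_le_pow_left₀ (norm_nonneg p) hrp 2
        linarith
      linarith

variable {J : Type*} [Fintype J]

/-- the form -/
noncomputable def Aq (w : J → ℝ) (p r : J → ℂ) (x : ℝ) : ℝ := ∑ j, w j * ‖p j - r j * uc x‖ ^ 2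

/-- its mean -/
noncomputable def Am (w : J → ℝ) (p r : J → ℂ) : ℝ := ∑ j, w j * (‖p j‖ ^ 2 + ‖r j‖ ^ 2)

theorem Aq_le {w : J → ℝ} (hw : ∀ j, 0 ≤ w j) (p r : J → ℂ) (x : ℝ) :
    Aq w p r x ≤ 2 * Am w p r := by
  unfold Aq Am
  rw [Finset.mul_sum]
  refine Finset.sum_le_sum fun j _ => ?_
  have h1 : ‖p j - r j * uc x‖ ≤ ‖p j‖ + ‖r j‖ := by
    refine (norm_sub_le _ _).trans ?_
    rw [norm_mul, norm_uc, mul_one]
  have h2 : ‖p j - r j * uc x‖ ^ 2 ≤ 2 * (‖p j‖ ^ 2 + ‖r j‖ ^ 2) := by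
    nlinarith [norm_nonneg (p j - r j * uc x), norm_nonneg (p j), norm_nonneg (r j),
      sq_nonneg (‖p j‖ - ‖r j‖)]
  nlinarith [hw j]

theorem Am_nonneg {w : J → ℝ} (hw : ∀ j, 0 ≤ w j) (p r : J → ℂ) : 0 ≤ Am w p r :=
  Finset.sum_nonneg fun j _ => mul_nonneg (hw j) (by positivity)

theorem Aq_nonneg {w : J → ℝ} (hw : ∀ j, 0 ≤ w j) (p r : J → ℂ) (x : ℝ) : 0 ≤ Aq w p r x :=
  Finset.sum_nonneg fun j _ => mul_nonneg (hw j) (by positivity)

/-- **Jensen on the circle** -/
theorem jensen {w : J → ℝ} (hw : ∀ j, 0 ≤ w j) (p r : J → ℂ) {L : ℝ → ℝ}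
    (hLi : Integrable L nu) {c1 : ℝ}
    (hb : ∀ x, (Aq w p r x ≠ 0 ∨ Am w p r = 0) →
      L x ≤ c1 + max 0 (Real.log (Am w p r / Aq w p r x))) :
    ∫ x, L x ∂nu ≤ c1 + 2 * Real.log 2 := by
  classical
  have hlog2 : 0 ≤ Real.log 2 := Real.log_nonneg (by norm_num)
  rcases eq_or_lt_of_le (Am_nonneg hw p r) with hA0 | hA0
  · have h1 : ∀ x, L x ≤ c1 := by
      intro x
      have := hb x (Or.inr hA0.symm)
      rw [← hA0, zero_div, Real.log_zero, max_self, add_zero] at this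
      exact this
    have h2 := integral_mono hLi (integrable_const c1) h1
    rw [integral_const] at h2
    simp at h2
    linarith
  set A0 := Am w p r with hA0d
  set S : Finset J := Finset.univ.filter fun j => w j * (‖p j‖ ^ 2 + ‖r j‖ ^ 2) ≠ 0 with hS
  set a : J → ℝ := fun j => ‖p j‖ ^ 2 + ‖r j‖ ^ 2 with ha
  set π' : J → ℝ := fun j => w j * a j / A0 with hπ
  have hSw : ∀ j ∈ S, w j ≠ 0 ∧ a j ≠ 0 := by
    intro j hj
    have := (Finset.mem_filter.1 hj).2
    exact ⟨left_ne_zero_of_mul this, right_ne_zero_of_mul this⟩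
  have hapos : ∀ j ∈ S, 0 < a j := fun j hj =>
    lt_of_le_of_ne (by positivity) (Ne.symm (hSw j hj).2)
  have hne0 : ∀ j ∈ S, ¬ (p j = 0 ∧ r j = 0) := by
    intro j hj h
    apply (hSw j hj).2
    simp only [ha, h.1, h.2]
    simp
  have hπ0 : ∀ j ∈ S, 0 ≤ π' j := fun j hj =>
    div_nonneg (mul_nonneg (hw j) (by positivity)) hA0.le
  have hπ1 : ∑ j ∈ S, π' j = 1 := by
    rw [hπ, ← Finset.sum_div, hS, Finset.sum_filter_ne_zero]
    exact div_self hA0.ne'
  have hae : ∀ᵐ x ∂nu, ∀ j ∈ S, p j - r j * uc x ≠ 0 := by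
    refine (Filter.eventually_all_finset S).2 fun j hj => ?_
    exact ae_ne (hne0 j hj)
  have key : ∀ᵐ x ∂nu, L x ≤ c1 + Real.log 2 +
      ∑ j ∈ S, π' j * (Real.log (a j) - 2 * Real.log ‖p j - r j * uc x‖) := by
    filter_upwards [hae] with x hx
    have hy : ∀ j ∈ S, 0 < ‖p j - r j * uc x‖ ^ 2 / a j := fun j hj =>
      div_pos (pow_pos (norm_pos_iff.2 (hx j hj)) 2) (hapos j hj)
    have hAS : Aq w p r x = A0 * ∑ j ∈ S, π' j * (‖p j - r j * uc x‖ ^ 2 / a j) := by
      rw [Finset.mul_sum]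
      unfold Aq
      have e1 : ∀ j ∈ S, A0 * (π' j * (‖p j - r j * uc x‖ ^ 2 / a j)) =
          w j * ‖p j - r j * uc x‖ ^ 2 := by
        intro j hj
        have := (hapos j hj).ne'
        simp only [hπ]
        field_simp
      rw [Finset.sum_congr rfl e1]
      refine (Finset.sum_subset (Finset.subset_univ S) fun j _ hj => ?_).symm
      have h1 : w j * (‖p j‖ ^ 2 + ‖r j‖ ^ 2) = 0 := by
        by_contra hc
        exact hj (Finset.mem_filter.2 ⟨Finset.mem_univ _, hc⟩)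
      rcases mul_eq_zero.1 h1 with h2 | h2
      · rw [h2, zero_mul]
      · have h3 : ‖p j‖ ^ 2 = 0 := by nlinarith [sq_nonneg ‖p j‖, sq_nonneg ‖r j‖]
        have h4 : ‖r j‖ ^ 2 = 0 := by nlinarith [sq_nonneg ‖p j‖, sq_nonneg ‖r j‖]
        have h5 : p j = 0 := norm_eq_zero.1 (pow_eq_zero_iff (by norm_num) |>.1 h3)
        have h6 : r j = 0 := norm_eq_zero.1 (pow_eq_zero_iff (by norm_num) |>.1 h4)
        rw [h5, h6]
        simp
    have hsumpos : 0 < ∑ j ∈ S, π' j * (‖p j - r j * uc x‖ ^ 2 / a j) := by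
      have hSne : S.Nonempty := by
        by_contra hc
        rw [Finset.not_nonempty_iff_eq_empty] at hc
        rw [hc, Finset.sum_empty] at hπ1
        exact zero_ne_one hπ1
      refine Finset.sum_pos (fun j hj => mul_pos ?_ (hy j hj)) hSne
      have hwp : 0 < w j := lt_of_le_of_ne (hw j) (Ne.symm (hSw j hj).1)
      exact div_pos (mul_pos hwp (hapos j hj)) hA0
    have hApos : 0 < Aq w p r x := by
      rw [hAS]; exact mul_pos hA0 hsumpos
    have h1 := hb x (Or.inl hApos.ne')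
    have h2 : Real.log (A0 / Aq w p r x) ≤
        ∑ j ∈ S, π' j * (Real.log (a j) - 2 * Real.log ‖p j - r j * uc x‖) := by
      have hconc := (strictConcaveOn_log_Ioi.concaveOn).le_map_sum (t := S) (w := π')
        (p := fun j => ‖p j - r j * uc x‖ ^ 2 / a j) hπ0 hπ1 (fun j hj => hy j hj)
      simp only [smul_eq_mul] at hconc
      have e2 : Real.log (A0 / Aq w p r x) =
          -Real.log (∑ j ∈ S, π' j * (‖p j - r j * uc x‖ ^ 2 / a j)) := by
        rw [hAS, Real.log_div hA0.ne' (mul_pos hA0 hsumpos).ne',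
          Real.log_mul hA0.ne' hsumpos.ne']
        ring
      rw [e2]
      have e3 : ∑ j ∈ S, π' j * (Real.log (a j) - 2 * Real.log ‖p j - r j * uc x‖) =
          -∑ j ∈ S, π' j * Real.log (‖p j - r j * uc x‖ ^ 2 / a j) := by
        rw [← Finset.sum_neg_distrib]
        refine Finset.sum_congr rfl fun j hj => ?_
        rw [Real.log_div (pow_pos (norm_pos_iff.2 (hx j hj)) 2).ne' (hapos j hj).ne',
          Real.log_pow]
        push_cast
        ring
      rw [e3]
      linarith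
    have h3 : -Real.log 2 ≤ Real.log (A0 / Aq w p r x) := by
      have h4 : (2:ℝ)⁻¹ ≤ A0 / Aq w p r x := by
        rw [le_div_iff₀ hApos]
        have := Aq_le hw p r x
        linarith
      have h5 := Real.log_le_log (by norm_num) h4
      rwa [Real.log_inv] at h5
    have h6 : max 0 (Real.log (A0 / Aq w p r x)) ≤ Real.log 2 +
        Real.log (A0 / Aq w p r x) := max_le (by linarith) (by linarith)
    linarith
  have hli : ∀ j ∈ S, Integrable (fun x => π' j *
      (Real.log (a j) - 2 * Real.log ‖p j - r j * uc x‖)) nu := by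
    intro j hj
    exact ((integrable_const _).sub ((int_log (hne0 j hj)).1.const_mul 2)).const_mul _
  have hRi : Integrable (fun x => c1 + Real.log 2 +
      ∑ j ∈ S, π' j * (Real.log (a j) - 2 * Real.log ‖p j - r j * uc x‖)) nu :=
    (integrable_const _).add (integrable_finsetSum S hli)
  have h1 := integral_mono_ae hLi hRi key
  rw [integral_add (integrable_const _) (integrable_finsetSum S hli), integral_finset_sum S hli,
    integral_const] at h1
  have h2 : ∀ j ∈ S, ∫ x, π' j * (Real.log (a j) - 2 * Real.log ‖p j - r j * uc x‖) ∂nu ≤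
      π' j * Real.log 2 := by
    intro j hj
    rw [integral_const_mul, integral_sub (integrable_const _)
      ((int_log (hne0 j hj)).1.const_mul 2), integral_const, integral_const_mul]
    refine mul_le_mul_of_nonneg_left ?_ (hπ0 j hj)
    have h3 := (int_log (hne0 j hj)).2
    have h4 : Real.log ((‖p j‖ ^ 2 + ‖r j‖ ^ 2) / 2) = Real.log (a j) - Real.log 2 :=
      Real.log_div (hapos j hj).ne' (by norm_num)
    rw [h4] at h3
    simp
    linarith
  have h3 := Finset.sum_le_sum h2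
  rw [← Finset.sum_mul, hπ1, one_mul] at h3
  simp at h1
  linarith

end P365T2.H720.LogC
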