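import Vale.Agent.P365.T2.C0844
import Vale.Agent.P365.T2.Center37

/-!
# P365 / T2 / H720 / CenI: the circle data of the weighted rows are a `Cen` instance

`w b ≥ 0` weights, `z` the resampled site, `x` a row.  `Aw w x = Σ_b w_b T_xb`,
`Aw0 w z x = Σ_b w_b Tc_xb` (844's circle mean), `t = G_zz`, `xi = (t - i q)/q` unimodular.

* `Aw_sub : Aw w x - Aw0 w z x = Re (al w z x * xi)`,
* `norm_al_sq : |al|^2 ≤ 4 Ah (a R)`,
* `Mc_eq : Mc z x = e_x Im Gc_xx`, `az_le_Mc : a_x ≤ M_0`,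
* `cen : Cen (Ah w z x) (az z x) (Rw w z) (Mc z x) (Aw w x) (pr (TT A W) x)`.
-/

set_option linter.all false

namespace P365T2.H720.CenI

open Finset P365L P365O P365T1 Complex
open Vale.Agent.P365.T2.H789
open P365T2.H844
open scoped RealInnerProductSpace ComplexConjugate

variable {ι : Type*} [Fintype ι] [DecidableEq ι] (A : Matrix ι ι ℝ) (W : ι → ℂ)

/-- `a_x = e_x |g_x|^2 q_z` -/
noncomputable def az (z x : ι) : ℝ := (-(W x).im) * ‖gw A W z x‖ ^ 2 * qz A W z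

/-- hat part of the circle mean of the weighted row -/
noncomputable def Ah (w : ι → ℝ) (z x : ι) : ℝ :=
  ∑ b, (-(W x).im) * (-(W b).im) * w b * ‖Gc A W z x b‖ ^ 2

/-- `R = q_z Σ_b e_b |g_b|^2 w_b` -/
noncomputable def Rw (w : ι → ℝ) (z : ι) : ℝ :=
  ∑ b, (-(W b).im) * ‖gw A W z b‖ ^ 2 * w b * qz A W z

/-- weighted row -/
noncomputable def Aw (w : ι → ℝ) (x : ι) : ℝ := ∑ b, w b * TT A W x b

/-- circle mean of the weighted row -/
noncomputable def Aw0 (w : ι → ℝ) (z x : ι) : ℝ := ∑ b, w b * Tc A W z x b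

/-- amplitude of the weighted row on the circle -/
noncomputable def al (w : ι → ℝ) (z x : ι) : ℂ :=
  ∑ b, (((-(W x).im) * (-(W b).im) * w b * (2 * qz A W z) : ℝ) : ℂ) *
    (conj (Gc A W z x b) * (gw A W z x * gw A W z b))

/-- the position on the unit circle -/
noncomputable def xi (z : ι) : ℂ := (Gr A W z z - (qz A W z : ℂ) * I) / (qz A W z : ℂ)

variable {A W}

theorem Sf_q (hA : A.IsSymm) (hW : ∀ x, (W x).im < 0) (z : ι) : Sf A W z * (2 * qz A W z) = 1 := by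
  have h := Sf_pos hA hW z
  unfold qz
  field_simp

theorem normSq_sub (hA : A.IsSymm) (hW : ∀ x, (W x).im < 0) (z : ι) :
    ‖Gr A W z z - (qz A W z : ℂ) * I‖ ^ 2 = qz A W z ^ 2 := by
  have h := qz_rel hA hW z
  rw [← Complex.normSq_eq_norm_sq, Complex.normSq_apply]
  simp only [Complex.sub_re, Complex.sub_im, Complex.mul_re, Complex.mul_im, Complex.ofReal_re,
    Complex.ofReal_im, Complex.I_re, Complex.I_im]
  unfold mm at h
  nlinarith [h]

theorem norm_sub_q (hA : A.IsSymm) (hW : ∀ x, (W x).im < 0) (z : ι) :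
    ‖Gr A W z z - (qz A W z : ℂ) * I‖ = qz A W z := by
  have h := normSq_sub hA hW z
  exact (pow_left_inj₀ (norm_nonneg _) (qz_pos hA hW z).le two_ne_zero).1 h

theorem q_xi (hA : A.IsSymm) (hW : ∀ x, (W x).im < 0) (z : ι) :
    Gr A W z z - (qz A W z : ℂ) * I = (qz A W z : ℂ) * xi A W z := by
  have h : (qz A W z : ℂ) ≠ 0 := by exact_mod_cast (qz_pos hA hW z).ne'
  unfold xi
  field_simp

theorem norm_xi (hA : A.IsSymm) (hW : ∀ x, (W x).im < 0) (z : ι) : ‖xi A W z‖ = 1 := by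
  have h := qz_pos hA hW z
  unfold xi
  rw [norm_div, norm_sub_q hA hW, Complex.norm_real, Real.norm_eq_abs, abs_of_pos h,
    div_self h.ne']

theorem Gr_eq_Gc (hA : A.IsSymm) (hW : ∀ x, (W x).im < 0) (z a b : ι) :
    Gr A W a b = Gc A W z a b + gw A W z a * gw A W z b * ((qz A W z : ℂ) * xi A W z) := by
  rw [← q_xi hA hW, Gr_eq_Gi hA hW z a b, Gc]
  ring

theorem e_pos (hW : ∀ x, (W x).im < 0) (x : ι) : 0 < -(W x).im := neg_pos.2 (hW x)

theorem TT_sub_Tc (hA : A.IsSymm) (hW : ∀ x, (W x).im < 0) (z a b : ι) :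
    TT A W a b - Tc A W z a b = ((((-(W a).im) * (-(W b).im) * (2 * qz A W z) : ℝ) : ℂ) *
      (conj (Gc A W z a b) * (gw A W z a * gw A W z b)) * xi A W z).re := by
  have h1 : ‖xi A W z‖ ^ 2 = 1 := by rw [norm_xi hA hW]; norm_num
  have h2 : ‖Gr A W a b‖ ^ 2 = ‖Gc A W z a b‖ ^ 2 +
      2 * (conj (Gc A W z a b) * (gw A W z a * gw A W z b * ((qz A W z : ℂ) * xi A W z))).re +
      ‖gw A W z a‖ ^ 2 * ‖gw A W z b‖ ^ 2 * qz A W z ^ 2 := by
    rw [Gr_eq_Gc hA hW z a b]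
    have h3 := Complex.normSq_add (Gc A W z a b)
      (gw A W z a * gw A W z b * ((qz A W z : ℂ) * xi A W z))
    have h4 : Complex.normSq (gw A W z a * gw A W z b * ((qz A W z : ℂ) * xi A W z)) =
        ‖gw A W z a‖ ^ 2 * ‖gw A W z b‖ ^ 2 * qz A W z ^ 2 := by
      rw [Complex.normSq_eq_norm_sq, norm_mul, norm_mul, norm_mul, Complex.norm_real,
        Real.norm_eq_abs]
      have : (‖gw A W z a‖ * ‖gw A W z b‖ * (|qz A W z| * ‖xi A W z‖)) ^ 2 =
        ‖gw A W z a‖ ^ 2 * ‖gw A W z b‖ ^ 2 * (|qz A W z| ^ 2 * ‖xi A W z‖ ^ 2) := by ring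
      rw [this, h1, sq_abs, mul_one]
    have h5 : (Gc A W z a b * conj (gw A W z a * gw A W z b * ((qz A W z : ℂ) * xi A W z))).re =
        (conj (Gc A W z a b) * (gw A W z a * gw A W z b * ((qz A W z : ℂ) * xi A W z))).re := by
      rw [← Complex.conj_re]
      congr 1
      simp only [map_mul, Complex.conj_conj]
    rw [h4, h5, Complex.normSq_eq_norm_sq, Complex.normSq_eq_norm_sq] at h3
    linarith
  unfold TT Tc KK
  rw [h2]
  have h6 : (((-(W a).im) * (-(W b).im) * (2 * qz A W z) : ℝ) : ℂ) *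
      (conj (Gc A W z a b) * (gw A W z a * gw A W z b)) * xi A W z =
      (((-(W a).im) * (-(W b).im) * 2 : ℝ) : ℂ) *
      (conj (Gc A W z a b) * (gw A W z a * gw A W z b * ((qz A W z : ℂ) * xi A W z))) := by
    push_cast
    ring
  rw [h6, Complex.re_ofReal_mul]
  ring

/-- **the weighted row on the circle** -/
theorem Aw_sub (hA : A.IsSymm) (hW : ∀ x, (W x).im < 0) (w : ι → ℝ) (z x : ι) :
    Aw A W w x - Aw0 A W w z x = (al A W w z x * xi A W z).re := by
  unfold Aw Aw0 al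
  rw [← Finset.sum_sub_distrib, Finset.sum_mul, Complex.re_sum]
  refine Finset.sum_congr rfl fun b _ => ?_
  rw [← mul_sub, TT_sub_Tc hA hW, ← Complex.re_ofReal_mul]
  congr 1
  push_cast
  ring

theorem Aw0_eq (w : ι → ℝ) (z x : ι) :
    Aw0 A W w z x = Ah A W w z x + az A W z x * Rw A W w z := by
  unfold Aw0 Ah az Rw Tc
  rw [Finset.mul_sum, ← Finset.sum_add_distrib]
  refine Finset.sum_congr rfl fun b _ => ?_
  ring

theorem az_nonneg (hA : A.IsSymm) (hW : ∀ x, (W x).im < 0) (z x : ι) : 0 ≤ az A W z x := by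
  have h1 := e_pos hW x
  have h2 := qz_pos hA hW z
  unfold az
  positivity

theorem Ah_nonneg (hW : ∀ x, (W x).im < 0) {w : ι → ℝ} (hw : ∀ b, 0 ≤ w b) (z x : ι) :
    0 ≤ Ah A W w z x := by
  refine Finset.sum_nonneg fun b _ => ?_
  have h1 := e_pos hW x
  have h2 := e_pos hW b
  have h3 := hw b
  positivity

theorem Rw_nonneg (hA : A.IsSymm) (hW : ∀ x, (W x).im < 0) {w : ι → ℝ} (hw : ∀ b, 0 ≤ w b)
    (z : ι) : 0 ≤ Rw A W w z := by
  refine Finset.sum_nonneg fun b _ => ?_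
  have h2 := e_pos hW b
  have h3 := hw b
  have h4 := qz_pos hA hW z
  positivity

theorem Aw_nonneg (hW : ∀ x, (W x).im < 0) {w : ι → ℝ} (hw : ∀ b, 0 ≤ w b) (x : ι) :
    0 ≤ Aw A W w x :=
  Finset.sum_nonneg fun b _ => mul_nonneg (hw b) (TT_nonneg hW x b)

/-- **the amplitude** -/
theorem norm_al_sq (hA : A.IsSymm) (hW : ∀ x, (W x).im < 0) {w : ι → ℝ} (hw : ∀ b, 0 ≤ w b)
    (z x : ι) :
    ‖al A W w z x‖ ^ 2 ≤ 4 * Ah A W w z x * (az A W z x * Rw A W w z) := by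
  have hq := qz_pos hA hW z
  have hc : ∀ b, 0 ≤ (-(W x).im) * (-(W b).im) * w b := fun b =>
    mul_nonneg (mul_nonneg (e_pos hW x).le (e_pos hW b).le) (hw b)
  have h1 : ‖al A W w z x‖ ≤ ∑ b, (Real.sqrt ((-(W x).im) * (-(W b).im) * w b) *
      ‖Gc A W z x b‖) * (Real.sqrt ((-(W x).im) * (-(W b).im) * w b) * (2 * qz A W z *
        (‖gw A W z x‖ * ‖gw A W z b‖))) := by
    unfold al
    refine (norm_sum_le _ _).trans (Finset.sum_le_sum fun b _ => ?_)
    rw [norm_mul, norm_mul, norm_mul, Complex.norm_real, Complex.norm_conj, Real.norm_eq_abs,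
      abs_of_nonneg (mul_nonneg (hc b) (by linarith))]
    refine le_of_eq ?_
    have h2 := Real.mul_self_sqrt (hc b)
    calc (-(W x).im) * (-(W b).im) * w b * (2 * qz A W z) *
        (‖Gc A W z x b‖ * (‖gw A W z x‖ * ‖gw A W z b‖))
        = (Real.sqrt ((-(W x).im) * (-(W b).im) * w b) *
          Real.sqrt ((-(W x).im) * (-(W b).im) * w b)) * (2 * qz A W z) *
        (‖Gc A W z x b‖ * (‖gw A W z x‖ * ‖gw A W z b‖)) := by rw [h2]
      _ = _ := by ring
  have h2 := Finset.sum_mul_sq_le_sq_mul_sq Finset.univ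
    (fun b => Real.sqrt ((-(W x).im) * (-(W b).im) * w b) * ‖Gc A W z x b‖)
    (fun b => Real.sqrt ((-(W x).im) * (-(W b).im) * w b) * (2 * qz A W z *
        (‖gw A W z x‖ * ‖gw A W z b‖)))
  have h3 : ‖al A W w z x‖ ^ 2 ≤ (∑ b, (Real.sqrt ((-(W x).im) * (-(W b).im) * w b) *
      ‖Gc A W z x b‖) * (Real.sqrt ((-(W x).im) * (-(W b).im) * w b) * (2 * qz A W z *
        (‖gw A W z x‖ * ‖gw A W z b‖)))) ^ 2 := pow_le_pow_left₀ (norm_nonneg _) h1 2
  refine h3.trans (h2.trans (le_of_eq ?_))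
  have e1 : ∑ b, (Real.sqrt ((-(W x).im) * (-(W b).im) * w b) * ‖Gc A W z x b‖) ^ 2 =
      Ah A W w z x := by
    unfold Ah
    refine Finset.sum_congr rfl fun b _ => ?_
    rw [mul_pow, Real.sq_sqrt (hc b)]
  have e2 : ∑ b, (Real.sqrt ((-(W x).im) * (-(W b).im) * w b) * (2 * qz A W z *
        (‖gw A W z x‖ * ‖gw A W z b‖))) ^ 2 = 4 * (az A W z x * Rw A W w z) := by
    unfold az Rw
    rw [Finset.mul_sum, Finset.mul_sum]
    refine Finset.sum_congr rfl fun b _ => ?_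
    rw [mul_pow, Real.sq_sqrt (hc b)]
    ring
  rw [e1, e2]
  ring

/-! ### the mass -/

theorem Gc_eq (z a b : ι) :
    Gc A W z a b = Gi A W z a b + gw A W z a * gw A W z b * ((qz A W z : ℂ) * I) := rfl

/-- `Σ_b e_b |Gi_ab|^2 = Im Gi_aa` -/
theorem sum_Gi_sq (hA : A.IsSymm) (hW : ∀ x, (W x).im < 0) (z a : ι) :
    ∑ b, (-(W b).im) * ‖Gi A W z a b‖ ^ 2 = (Gi A W z a a).im := by
  have h := Gi_ward hA hW z a a
  have h2 : ∑ c, ((-(W c).im : ℝ) : ℂ) * (Gi A W z a c * conj (Gi A W z a c)) =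
      ((∑ b, (-(W b).im) * ‖Gi A W z a b‖ ^ 2 : ℝ) : ℂ) := by
    push_cast
    refine Finset.sum_congr rfl fun b _ => ?_
    rw [Complex.mul_conj, Complex.normSq_eq_norm_sq]
    push_cast
    ring
  rw [h2] at h
  exact_mod_cast h

/-- `(Im g_a)^2 ≤ Im Gi_aa * Sf` -/
theorem im_gw_sq_le (hA : A.IsSymm) (hW : ∀ x, (W x).im < 0) (z a : ι) :
    (gw A W z a).im ^ 2 ≤ (Gi A W z a a).im * Sf A W z := by
  have h := Gi_gw hA hW z a
  have h1 : |(gw A W z a).im| ≤ ∑ b, (Real.sqrt (-(W b).im) * ‖Gi A W z a b‖) *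
      (Real.sqrt (-(W b).im) * ‖gw A W z b‖) := by
    have h2 : |(gw A W z a).im| = ‖(((gw A W z a).im : ℝ) : ℂ)‖ := by
      rw [Complex.norm_real, Real.norm_eq_abs]
    rw [h2, ← h]
    refine (norm_sum_le _ _).trans (Finset.sum_le_sum fun b _ => le_of_eq ?_)
    rw [norm_mul, norm_mul, Complex.norm_real, Complex.norm_conj, Real.norm_eq_abs,
      abs_of_pos (e_pos hW b)]
    have h3 := Real.mul_self_sqrt (e_pos hW b).le
    calc -(W b).im * (‖Gi A W z a b‖ * ‖gw A W z b‖) =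
        (Real.sqrt (-(W b).im) * Real.sqrt (-(W b).im)) *
          (‖Gi A W z a b‖ * ‖gw A W z b‖) := by rw [h3]
      _ = _ := by ring
  have h2 := Finset.sum_mul_sq_le_sq_mul_sq Finset.univ
    (fun b => Real.sqrt (-(W b).im) * ‖Gi A W z a b‖)
    (fun b => Real.sqrt (-(W b).im) * ‖gw A W z b‖)
  have e1 : ∑ b, (Real.sqrt (-(W b).im) * ‖Gi A W z a b‖) ^ 2 = (Gi A W z a a).im := by
    rw [← sum_Gi_sq hA hW]
    refine Finset.sum_congr rfl fun b _ => ?_
    rw [mul_pow, Real.sq_sqrt (e_pos hW b).le]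
  have e2 : ∑ b, (Real.sqrt (-(W b).im) * ‖gw A W z b‖) ^ 2 = Sf A W z := by
    unfold Sf
    refine Finset.sum_congr rfl fun b _ => ?_
    rw [mul_pow, Real.sq_sqrt (e_pos hW b).le]
  rw [e1, e2] at h2
  rw [← sq_abs]
  exact (pow_le_pow_left₀ (abs_nonneg _) h1 2).trans h2

/-- the hat part of the mass -/
theorem sum_Gc_sq (hA : A.IsSymm) (hW : ∀ x, (W x).im < 0) (z a : ι) :
    ∑ b, (-(W b).im) * ‖Gc A W z a b‖ ^ 2 =
      (Gi A W z a a).im - 2 * qz A W z * (gw A W z a).im ^ 2 +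
        ‖gw A W z a‖ ^ 2 * qz A W z / 2 := by
  have hq := Sf_q hA hW z
  have h1 : ∀ b, (-(W b).im) * ‖Gc A W z a b‖ ^ 2 = (-(W b).im) * ‖Gi A W z a b‖ ^ 2 +
      2 * ((gw A W z a * ((qz A W z : ℂ) * I)) * (((-(W b).im : ℝ) : ℂ) *
        (conj (Gi A W z a b) * gw A W z b))).re +
      ‖gw A W z a‖ ^ 2 * qz A W z ^ 2 * ((-(W b).im) * ‖gw A W z b‖ ^ 2) := by
    intro b
    have h3 := Complex.normSq_add (Gi A W z a b) (gw A W z a * gw A W z b * ((qz A W z : ℂ) * I))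
    have h4 : Complex.normSq (gw A W z a * gw A W z b * ((qz A W z : ℂ) * I)) =
        ‖gw A W z a‖ ^ 2 * ‖gw A W z b‖ ^ 2 * qz A W z ^ 2 := by
      rw [Complex.normSq_mul, Complex.normSq_mul, Complex.normSq_mul, Complex.normSq_I,
        Complex.normSq_ofReal, Complex.normSq_eq_norm_sq, Complex.normSq_eq_norm_sq]
      ring
    have h5 : (Gi A W z a b * conj (gw A W z a * gw A W z b * ((qz A W z : ℂ) * I))).re =
        (conj (Gi A W z a b) * (gw A W z a * gw A W z b * ((qz A W z : ℂ) * I))).re := by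
      rw [← Complex.conj_re]
      congr 1
      simp only [map_mul, Complex.conj_conj]
    rw [h4, h5, ← Gc_eq, Complex.normSq_eq_norm_sq, Complex.normSq_eq_norm_sq] at h3
    have h6 : (gw A W z a * ((qz A W z : ℂ) * I)) * (((-(W b).im : ℝ) : ℂ) *
        (conj (Gi A W z a b) * gw A W z b)) = ((-(W b).im : ℝ) : ℂ) *
        (conj (Gi A W z a b) * (gw A W z a * gw A W z b * ((qz A W z : ℂ) * I))) := by ring
    rw [h3, h6, Complex.re_ofReal_mul]
    ring
  rw [Finset.sum_congr rfl fun b _ => h1 b, Finset.sum_add_distrib, Finset.sum_add_distrib,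
    sum_Gi_sq hA hW, ← Finset.mul_sum, ← Finset.mul_sum, ← Complex.re_sum, ← Finset.mul_sum,
    Gi_gw hA hW]
  have h2 : (gw A W z a * ((qz A W z : ℂ) * I) * (((gw A W z a).im : ℝ) : ℂ)).re =
      -(qz A W z * (gw A W z a).im ^ 2) := by
    simp only [Complex.mul_re, Complex.mul_im, Complex.ofReal_re, Complex.ofReal_im,
      Complex.I_re, Complex.I_im]
    ring
  rw [h2]
  change _ + _ + ‖gw A W z a‖ ^ 2 * qz A W z ^ 2 * Sf A W z = _
  linear_combination (‖gw A W z a‖ ^ 2 * qz A W z / 2) * hq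

theorem sq_norm_eq (c : ℂ) : ‖c‖ ^ 2 = c.re ^ 2 + c.im ^ 2 := by
  rw [← Complex.normSq_eq_norm_sq, Complex.normSq_apply]
  ring

/-- **circle mean of the mass** (Ward identity at the centre) -/
theorem Mc_eq' (hA : A.IsSymm) (hW : ∀ x, (W x).im < 0) (z x : ι) :
    Mc A W z x = (-(W x).im) * ((Gi A W z x x).im - 2 * qz A W z * (gw A W z x).im ^ 2) +
      az A W z x := by
  have hq := Sf_q hA hW z
  have h1 : Mc A W z x = (-(W x).im) * ∑ b, (-(W b).im) * ‖Gc A W z x b‖ ^ 2 +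
      (-(W x).im) * (‖gw A W z x‖ ^ 2 * qz A W z ^ 2) * Sf A W z := by
    unfold Mc Tc Sf
    rw [Finset.mul_sum, Finset.mul_sum, ← Finset.sum_add_distrib]
    refine Finset.sum_congr rfl fun b _ => ?_
    ring
  rw [h1, sum_Gc_sq hA hW]
  unfold az
  linear_combination ((-(W x).im) * ‖gw A W z x‖ ^ 2 * qz A W z / 2) * hq

theorem Mc_eq (hA : A.IsSymm) (hW : ∀ x, (W x).im < 0) (z x : ι) :
    Mc A W z x = (-(W x).im) * (Gc A W z x x).im := by
  rw [Mc_eq' hA hW, Gc_eq, az, sq_norm_eq]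
  simp only [Complex.add_im, Complex.mul_re, Complex.mul_im, Complex.ofReal_re,
    Complex.ofReal_im, Complex.I_re, Complex.I_im]
  ring

/-- `a ≤ M₀` -/
theorem az_le_Mc (hA : A.IsSymm) (hW : ∀ x, (W x).im < 0) (z x : ι) :
    az A W z x ≤ Mc A W z x := by
  rw [Mc_eq' hA hW]
  have h1 := im_gw_sq_le hA hW z x
  have hq := Sf_q hA hW z
  have hq0 := qz_pos hA hW z
  have h2 : 2 * qz A W z * (gw A W z x).im ^ 2 ≤ (Gi A W z x x).im := by
    calc 2 * qz A W z * (gw A W z x).im ^ 2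
        ≤ 2 * qz A W z * ((Gi A W z x x).im * Sf A W z) := by gcongr
      _ = (Gi A W z x x).im * (Sf A W z * (2 * qz A W z)) := by ring
      _ = (Gi A W z x x).im := by rw [hq, mul_one]
  have h3 := mul_nonneg (e_pos hW x).le (sub_nonneg.2 h2)
  linarith

/-- the mass on the circle -/
theorem pr_sub (hA : A.IsSymm) (hW : ∀ x, (W x).im < 0) (z x : ι) :
    pr (TT A W) x - Mc A W z x =
      ((-(((-(W x).im) * qz A W z : ℝ) : ℂ) * I * gw A W z x ^ 2) * xi A W z).re := by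
  rw [pr_TT hA hW, Mc_eq hA hW]
  have h1 : mm A W x = (Gc A W z x x).im +
      (gw A W z x * gw A W z x * ((qz A W z : ℂ) * xi A W z)).im := by
    unfold mm
    rw [Gr_eq_Gc hA hW z x x, Complex.add_im]
  rw [h1]
  have h2 : (-(((-(W x).im) * qz A W z : ℝ) : ℂ) * I * gw A W z x ^ 2) * xi A W z =
      ((-(-(W x).im) : ℝ) : ℂ) * (I * (gw A W z x * gw A W z x * ((qz A W z : ℂ) * xi A W z))) := by
    push_cast
    ring
  rw [h2, Complex.re_ofReal_mul, Complex.I_mul_re]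
  ring

theorem norm_alM (hA : A.IsSymm) (hW : ∀ x, (W x).im < 0) (z x : ι) :
    ‖-(((-(W x).im) * qz A W z : ℝ) : ℂ) * I * gw A W z x ^ 2‖ = az A W z x := by
  rw [norm_mul, norm_mul, norm_neg, Complex.norm_real, Complex.norm_I, norm_pow,
    Real.norm_eq_abs, abs_of_nonneg (mul_nonneg (e_pos hW x).le (qz_pos hA hW z).le), az]
  ring

theorem abs_pr_sub_le (hA : A.IsSymm) (hW : ∀ x, (W x).im < 0) (z x : ι) :
    |pr (TT A W) x - Mc A W z x| ≤ az A W z x := by
  rw [pr_sub hA hW]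
  refine (Complex.abs_re_le_norm _).trans (le_of_eq ?_)
  rw [norm_mul, norm_xi hA hW, mul_one, norm_alM hA hW]

/-- **the circle data of the weighted rows** -/
theorem cen (hA : A.IsSymm) (hW : ∀ x, (W x).im < 0) {w : ι → ℝ} (hw : ∀ b, 0 ≤ w b)
    (z x : ι) :
    P365T2.C37.Cen (Ah A W w z x) (az A W z x) (Rw A W w z) (Mc A W z x) (Aw A W w x)
      (pr (TT A W) x) where
  hAh := Ah_nonneg hW hw z x
  ha := az_nonneg hA hW z x
  hR := Rw_nonneg hA hW hw z
  haM := az_le_Mc hA hW z x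
  hA := Aw_nonneg hW hw x
  hM := pr_TT_pos hA hW x
  hA2 := by
    rw [← Aw0_eq, Aw_sub hA hW, ← sq_abs]
    refine le_trans ?_ (norm_al_sq hA hW hw z x)
    refine pow_le_pow_left₀ (abs_nonneg _) ((Complex.abs_re_le_norm _).trans (le_of_eq ?_)) 2
    rw [norm_mul, norm_xi hA hW, mul_one]
  hM2 := abs_pr_sub_le hA hW z x

/-- the weighted row, hat part, ... for the weights of the scale `k` -/
theorem an_eq {E : Type*} [NormedAddCommGroup E] [InnerProductSpace ℝ E] (Φ : ι → E)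
    (J k : ℕ) (x : ι) :
    An A W Φ J k x = Aw A W (fun b => P365T2.H37.wk J k (tt Φ x b)) x := rfl

theorem ac_eq {E : Type*} [NormedAddCommGroup E] [InnerProductSpace ℝ E] (Φ : ι → E)
    (J k : ℕ) (z x : ι) :
    Ac A W Φ J k z x = Aw0 A W (fun b => P365T2.H37.wk J k (tt Φ x b)) z x := rfl

theorem ac_eq' {E : Type*} [NormedAddCommGroup E] [InnerProductSpace ℝ E] (Φ : ι → E)
    (J k : ℕ) (z x : ι) :
    Ac A W Φ J k z x = Ah A W (fun b => P365T2.H37.wk J k (tt Φ x b)) z x +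
      az A W z x * Rw A W (fun b => P365T2.H37.wk J k (tt Φ x b)) z := Aw0_eq _ z x

/-- **the `Cen` instance of the scale `k`** -/
theorem cen_wk {E : Type*} [NormedAddCommGroup E] [InnerProductSpace ℝ E] (Φ : ι → E)
    (hA : A.IsSymm) (hW : ∀ x, (W x).im < 0) (J k : ℕ) (z x : ι) :
    P365T2.C37.Cen (Ah A W (fun b => P365T2.H37.wk J k (tt Φ x b)) z x) (az A W z x)
      (Rw A W (fun b => P365T2.H37.wk J k (tt Φ x b)) z) (Mc A W z x) (An A W Φ J k x)
      (pr (TT A W) x) :=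
  cen hA hW (fun b => P365T2.H37.wk_nonneg (tt_nonneg x b)) z x

/-! ### the data at the resampled site -/

theorem pr_z (hA : A.IsSymm) (hW : ∀ x, (W x).im < 0) (z : ι) :
    pr (TT A W) z * (2 * qz A W z) = (-(W z).im) * ‖Gr A W z z‖ ^ 2 := by
  rw [pr_TT hA hW, mm_eq_Sf hA hW]
  linear_combination ((-(W z).im) * ‖Gr A W z z‖ ^ 2) * Sf_q hA hW z

/-- `T_xz = 2 a_x M_z` -/
theorem TT_eq_az (hA : A.IsSymm) (hW : ∀ x, (W x).im < 0) (z x : ι) :
    TT A W x z = 2 * az A W z x * pr (TT A W) z := by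
  have h := pr_z hA hW z
  have h2 : TT A W x z = (-(W x).im) * (-(W z).im) * ‖Gr A W x z‖ ^ 2 := rfl
  rw [h2, az, Gr_eq_gw hA hW z x, norm_mul, mul_pow]
  linear_combination (-((-(W x).im) * ‖gw A W z x‖ ^ 2)) * h

/-- `R = P_z w / 2` -/
theorem Rw_eq (hA : A.IsSymm) (hW : ∀ x, (W x).im < 0) (w : ι → ℝ) (z : ι) :
    Rw A W w z = (∑ b, TT A W z b / pr (TT A W) z * w b) / 2 := by
  have h := pr_z hA hW z
  have hp := (pr_TT_pos hA hW z).ne'
  unfold Rw
  rw [Finset.sum_div]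
  refine Finset.sum_congr rfl fun b _ => ?_
  have h2 : TT A W z b = (-(W z).im) * (-(W b).im) * ‖Gr A W z b‖ ^ 2 := rfl
  rw [eq_div_iff two_ne_zero, div_mul_eq_mul_div, eq_div_iff hp, h2, Gr_eq_gw' hA hW z b,
    norm_mul, mul_pow]
  linear_combination ((-(W b).im) * ‖gw A W z b‖ ^ 2 * w b) * h

theorem Rw_wk {E : Type*} [NormedAddCommGroup E] [InnerProductSpace ℝ E] (Φ : ι → E)
    (hA : A.IsSymm) (hW : ∀ x, (W x).im < 0) (J k : ℕ) (z x : ι) :
    Rw A W (fun b => P365T2.H37.wk J k (tt Φ x b)) z = Pw Φ (TT A W) J k z x / 2 :=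
  Rw_eq hA hW _ z

/-- amplitude of the mass -/
noncomputable def alM (A : Matrix ι ι ℝ) (W : ι → ℂ) (z x : ι) : ℂ :=
  -(((-(W x).im) * qz A W z : ℝ) : ℂ) * I * gw A W z x ^ 2

theorem Mw_sub (hA : A.IsSymm) (hW : ∀ x, (W x).im < 0) (z x : ι) :
    pr (TT A W) x - Mc A W z x = (alM A W z x * xi A W z).re := pr_sub hA hW z x

theorem norm_alM' (hA : A.IsSymm) (hW : ∀ x, (W x).im < 0) (z x : ι) :
    ‖alM A W z x‖ = az A W z x := norm_alM hA hW z x

/-! ### nothing depends on the real part of the potential of `z` -/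

section Upd

variable {v : ℂ} {z : ι}

theorem Sf_upd (hA : A.IsSymm) (hW : ∀ x, (W x).im < 0) (hv : v.im = (W z).im) :
    Sf A (Function.update W z v) z = Sf A W z := by
  have hv' : v.im < 0 := by rw [hv]; exact hW z
  have e1 := sg_im hA hW z
  have e2 := sg_im hA (update_neg (z := z) hW hv') z
  rw [sg_upd hA hW hv', Function.update_self, hv] at e2
  linarith

theorem qz_upd (hA : A.IsSymm) (hW : ∀ x, (W x).im < 0) (hv : v.im = (W z).im) :
    qz A (Function.update W z v) z = qz A W z := by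
  unfold qz
  rw [Sf_upd hA hW hv]

theorem e_upd (hv : v.im = (W z).im) (x : ι) : (Function.update W z v x).im = (W x).im := by
  by_cases h : x = z
  · subst h
    rw [Function.update_self, hv]
  · rw [Function.update_of_ne h]

theorem Gc_upd (hA : A.IsSymm) (hW : ∀ x, (W x).im < 0) (hv : v.im = (W z).im) (a b : ι) :
    Gc A (Function.update W z v) z a b = Gc A W z a b := by
  have hv' : v.im < 0 := by rw [hv]; exact hW z
  rw [Gc_eq, Gc_eq, Gi_upd hA hW hv', gw_upd hA hW hv', gw_upd hA hW hv', qz_upd hA hW hv]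

theorem az_upd (hA : A.IsSymm) (hW : ∀ x, (W x).im < 0) (hv : v.im = (W z).im) (x : ι) :
    az A (Function.update W z v) z x = az A W z x := by
  have hv' : v.im < 0 := by rw [hv]; exact hW z
  unfold az
  rw [e_upd hv, gw_upd hA hW hv', qz_upd hA hW hv]

theorem Ah_upd (hA : A.IsSymm) (hW : ∀ x, (W x).im < 0) (hv : v.im = (W z).im) (w : ι → ℝ)
    (x : ι) : Ah A (Function.update W z v) w z x = Ah A W w z x := by
  unfold Ah
  refine Finset.sum_congr rfl fun b _ => ?_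
  rw [e_upd hv, e_upd hv, Gc_upd hA hW hv]

theorem Rw_upd (hA : A.IsSymm) (hW : ∀ x, (W x).im < 0) (hv : v.im = (W z).im) (w : ι → ℝ) :
    Rw A (Function.update W z v) w z = Rw A W w z := by
  have hv' : v.im < 0 := by rw [hv]; exact hW z
  unfold Rw
  refine Finset.sum_congr rfl fun b _ => ?_
  rw [e_upd hv, gw_upd hA hW hv', qz_upd hA hW hv]

theorem Aw0_upd (hA : A.IsSymm) (hW : ∀ x, (W x).im < 0) (hv : v.im = (W z).im) (w : ι → ℝ)
    (x : ι) : Aw0 A (Function.update W z v) w z x = Aw0 A W w z x := by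
  rw [Aw0_eq, Aw0_eq, Ah_upd hA hW hv, az_upd hA hW hv, Rw_upd hA hW hv]

theorem Tc_upd (hA : A.IsSymm) (hW : ∀ x, (W x).im < 0) (hv : v.im = (W z).im) (a b : ι) :
    Tc A (Function.update W z v) z a b = Tc A W z a b := by
  have hv' : v.im < 0 := by rw [hv]; exact hW z
  unfold Tc
  rw [e_upd hv, e_upd hv, Gc_upd hA hW hv, gw_upd hA hW hv', gw_upd hA hW hv', qz_upd hA hW hv]

theorem Mc_upd (hA : A.IsSymm) (hW : ∀ x, (W x).im < 0) (hv : v.im = (W z).im) (x : ι) :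
    Mc A (Function.update W z v) z x = Mc A W z x := by
  unfold Mc
  exact Finset.sum_congr rfl fun b _ => Tc_upd hA hW hv x b

theorem Ac_upd {E : Type*} [NormedAddCommGroup E] [InnerProductSpace ℝ E] (Φ : ι → E)
    (hA : A.IsSymm) (hW : ∀ x, (W x).im < 0) (hv : v.im = (W z).im) (J k : ℕ) (x : ι) :
    Ac A (Function.update W z v) Φ J k z x = Ac A W Φ J k z x := by
  unfold Ac
  exact Finset.sum_congr rfl fun b _ => by rw [Tc_upd hA hW hv x b]

theorem al_upd (hA : A.IsSymm) (hW : ∀ x, (W x).im < 0) (hv : v.im = (W z).im) (w : ι → ℝ)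
    (x : ι) : al A (Function.update W z v) w z x = al A W w z x := by
  have hv' : v.im < 0 := by rw [hv]; exact hW z
  unfold al
  refine Finset.sum_congr rfl fun b _ => ?_
  rw [e_upd hv, e_upd hv, Gc_upd hA hW hv, gw_upd hA hW hv', gw_upd hA hW hv', qz_upd hA hW hv]

theorem alM_upd (hA : A.IsSymm) (hW : ∀ x, (W x).im < 0) (hv : v.im = (W z).im) (x : ι) :
    alM A (Function.update W z v) z x = alM A W z x := by
  have hv' : v.im < 0 := by rw [hv]; exact hW z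
  unfold alM
  rw [e_upd hv, gw_upd hA hW hv', qz_upd hA hW hv]

/-- the position on the circle: `xi = ((v - s)^{-1} - i q) / q` -/
theorem xi_upd (hA : A.IsSymm) (hW : ∀ x, (W x).im < 0) (hv : v.im = (W z).im) :
    xi A (Function.update W z v) z =
      ((v - sg A W z)⁻¹ - (qz A W z : ℂ) * I) / (qz A W z : ℂ) := by
  have hv' : v.im < 0 := by rw [hv]; exact hW z
  unfold xi
  rw [qz_upd hA hW hv, Gr_zz_upd hA hW hv']

end Upd

end P365T2.H720.CenI
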