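import Mathlib

set_option linter.all false

/-!
# Green's formula on the unit disc (circle averages against the Laplacian)

`Gn ψ = ∫_0^1 r log (1/r) circleAverage ψ 0 r dr`; for `f` of class `C²` near the closed disc
`circleAverage f 0 1 - f 0 = Gn (Δ f)`.
-/

namespace P365T2.H720

open Complex MeasureTheory Set Filter Topology Metric InnerProductSpace Laplacian
open scoped Real

/-- Green potential at the centre of the unit disc -/
noncomputable def Gn (psi : ℂ → ℝ) : ℝ :=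
  ∫ r in (0:ℝ)..1, r * Real.log (1 / r) * Real.circleAverage psi 0 r

/-- second derivative in two directions -/
noncomputable def D2 (f : ℂ → ℝ) (x v w : ℂ) : ℝ := fderiv ℝ (fderiv ℝ f) x v w

theorem lap_eq (f : ℂ → ℝ) (x : ℂ) : Δ f x = D2 f x 1 1 + D2 f x I I := by
  rw [laplacian_eq_iteratedFDeriv_complexPlane]
  simp [iteratedFDeriv_two_apply, D2]

theorem D2_symm {f : ℂ → ℝ} {x : ℂ} (hf : ContDiffAt ℝ 2 f x) (v w : ℂ) :
    D2 f x v w = D2 f x w v :=
  (hf.isSymmSndFDerivAt (by simp)).eq v w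

theorem D2_rot {f : ℂ → ℝ} {x : ℂ} (hf : ContDiffAt ℝ 2 f x) (e : ℂ) :
    D2 f x e e + D2 f x (I * e) (I * e) = ‖e‖ ^ 2 * Δ f x := by
  have h1 : e = e.re • (1:ℂ) + e.im • I := by
    apply Complex.ext <;> simp
  have h2 : I * e = e.re • I - e.im • (1:ℂ) := by
    apply Complex.ext <;> simp
  have h3 := D2_symm hf 1 I
  rw [lap_eq, h2, Complex.sq_norm, Complex.normSq_apply]
  conv_lhs => rw [h1]
  unfold D2 at *
  simp only [map_add, map_sub, map_smul, ContinuousLinearMap.add_apply,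
    ContinuousLinearMap.sub_apply, ContinuousLinearMap.smul_apply, smul_eq_mul]
  simp only [Complex.add_re, Complex.add_im, Complex.smul_re, Complex.smul_im, Complex.one_re,
    Complex.one_im, Complex.I_re, Complex.I_im, smul_eq_mul, mul_one, mul_zero, add_zero, zero_add]
  rw [h3]
  ring

/-- differentiation under the integral sign, jointly continuous case -/
theorem par {F F' : ℝ → ℝ → ℝ} (a b : ℝ) {s : Set ℝ} (hs : IsOpen s)
    (hF : ContinuousOn (fun p : ℝ × ℝ => F p.1 p.2) (s ×ˢ univ))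
    (hF' : ContinuousOn (fun p : ℝ × ℝ => F' p.1 p.2) (s ×ˢ univ))
    (hd : ∀ r ∈ s, ∀ θ, HasDerivAt (fun r => F r θ) (F' r θ) r) {r0 : ℝ} (h0 : r0 ∈ s) :
    HasDerivAt (fun r => ∫ θ in a..b, F r θ) (∫ θ in a..b, F' r0 θ) r0 := by
  obtain ⟨δ, hδ, hδs⟩ := Metric.nhds_basis_closedBall.mem_iff.1 (hs.mem_nhds h0)
  have hK : IsCompact (closedBall r0 δ ×ˢ uIcc a b) :=
    (isCompact_closedBall r0 δ).prod isCompact_uIcc
  obtain ⟨C, hC⟩ := hK.exists_bound_of_continuousOn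
    (hF'.mono (prod_mono hδs (subset_univ _)))
  have hcF : ∀ r ∈ s, Continuous (F r) := by
    intro r hr
    rw [← continuousOn_univ]
    exact hF.comp (f := fun θ : ℝ => ((r, θ) : ℝ × ℝ)) (by fun_prop)
      (fun θ _ => ⟨hr, mem_univ _⟩)
  have hcF' : ∀ r ∈ s, Continuous (F' r) := by
    intro r hr
    rw [← continuousOn_univ]
    exact hF'.comp (f := fun θ : ℝ => ((r, θ) : ℝ × ℝ)) (by fun_prop)
      (fun θ _ => ⟨hr, mem_univ _⟩)
  refine (intervalIntegral.hasDerivAt_integral_of_dominated_loc_of_deriv_le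
    (F := F) (F' := F') (s := closedBall r0 δ) (bound := fun _ => C)
    (closedBall_mem_nhds r0 hδ) ?_ ?_ ?_ ?_ ?_ ?_).2
  · filter_upwards [hs.mem_nhds h0] with r hr
    exact (hcF r hr).aestronglyMeasurable
  · exact (hcF r0 h0).intervalIntegrable _ _
  · exact (hcF' r0 h0).aestronglyMeasurable
  · refine Eventually.of_forall fun θ hθ r hr => ?_
    exact hC (r, θ) ⟨hr, uIoc_subset_uIcc hθ⟩
  · exact intervalIntegrable_const
  · exact Eventually.of_forall fun θ hθ r hr => hd r (hδs hr) θ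

section

variable {f : ℂ → ℝ} {R : ℝ}

theorem cm_mem {r : ℝ} (hr : r ∈ Ioo (-R) R) (θ : ℝ) : circleMap 0 r θ ∈ ball (0:ℂ) R := by
  rw [mem_ball_zero_iff, norm_circleMap_zero]
  exact abs_lt.2 hr

theorem cm_joint : Continuous (fun p : ℝ × ℝ => circleMap 0 p.1 p.2) := by
  unfold circleMap
  fun_prop

theorem hasDerivAt_cm (r θ : ℝ) :
    HasDerivAt (fun r : ℝ => circleMap 0 r θ) (Complex.exp (θ * I)) r := by
  unfold circleMap
  have h1 : HasDerivAt (fun r : ℝ => (r : ℂ)) 1 r := Complex.ofRealCLM.hasDerivAt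
  simpa using (h1.mul_const (Complex.exp (θ * I))).const_add 0

theorem diff1 (hf : ∀ z ∈ ball (0:ℂ) R, ContDiffAt ℝ 2 f z) {r : ℝ} (hr : r ∈ Ioo (-R) R)
    (θ : ℝ) : HasDerivAt (fun r : ℝ => f (circleMap 0 r θ))
      (fderiv ℝ f (circleMap 0 r θ) (Complex.exp (θ * I))) r := by
  have h1 : HasFDerivAt f (fderiv ℝ f (circleMap 0 r θ)) (circleMap 0 r θ) :=
    ((hf _ (cm_mem hr θ)).differentiableAt (by norm_num)).hasFDerivAt
  exact h1.comp_hasDerivAt r (hasDerivAt_cm r θ)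

theorem fderiv_cd (hf : ∀ z ∈ ball (0:ℂ) R, ContDiffAt ℝ 2 f z) {z : ℂ} (hz : z ∈ ball (0:ℂ) R) :
    ContDiffAt ℝ 1 (fderiv ℝ f) z :=
  (hf z hz).fderiv_right (by norm_num)

theorem diff2 (hf : ∀ z ∈ ball (0:ℂ) R, ContDiffAt ℝ 2 f z) {r : ℝ} (hr : r ∈ Ioo (-R) R)
    (θ : ℝ) : HasDerivAt (fun r : ℝ => fderiv ℝ f (circleMap 0 r θ) (Complex.exp (θ * I)))
      (D2 f (circleMap 0 r θ) (Complex.exp (θ * I)) (Complex.exp (θ * I))) r := by
  have h1 : HasFDerivAt (fderiv ℝ f) (fderiv ℝ (fderiv ℝ f) (circleMap 0 r θ))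
      (circleMap 0 r θ) :=
    ((fderiv_cd hf (cm_mem hr θ)).differentiableAt (by norm_num)).hasFDerivAt
  have h2 := h1.comp_hasDerivAt r (hasDerivAt_cm r θ)
  have h3 := h2.clm_apply (hasDerivAt_const r (Complex.exp (θ * I)))
  simpa [D2] using h3

theorem diffθ (hf : ∀ z ∈ ball (0:ℂ) R, ContDiffAt ℝ 2 f z) {r : ℝ} (hr : r ∈ Ioo (-R) R)
    (θ : ℝ) : HasDerivAt (fun θ : ℝ => fderiv ℝ f (circleMap 0 r θ) (I * Complex.exp (θ * I)))
      (r * D2 f (circleMap 0 r θ) (I * Complex.exp (θ * I)) (I * Complex.exp (θ * I))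
        - fderiv ℝ f (circleMap 0 r θ) (Complex.exp (θ * I))) θ := by
  have h1 : HasFDerivAt (fderiv ℝ f) (fderiv ℝ (fderiv ℝ f) (circleMap 0 r θ))
      (circleMap 0 r θ) :=
    ((fderiv_cd hf (cm_mem hr θ)).differentiableAt (by norm_num)).hasFDerivAt
  have h0 := hasDerivAt_circleMap 0 r θ
  have h2 := h1.comp_hasDerivAt θ h0
  have h4 : HasDerivAt (fun θ : ℝ => I * Complex.exp (θ * I)) (-Complex.exp (θ * I)) θ := by
    have h5 : HasDerivAt (fun θ : ℝ => (θ : ℂ) * I) (1 * I) θ :=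
      (Complex.ofRealCLM.hasDerivAt).mul_const I
    have h6 := (h5.cexp).const_mul I
    have h7 : I * (Complex.exp (θ * I) * (1 * I)) = -Complex.exp (θ * I) := by
      have := Complex.I_mul_I
      linear_combination (Complex.exp (θ * I)) * this
    rw [h7] at h6
    exact h6
  have h3 := h2.clm_apply h4
  have h8 : circleMap 0 r θ * I = (r : ℝ) • (I * Complex.exp (θ * I)) := by
    rw [circleMap, Complex.real_smul]
    ring
  have h9 : (fderiv ℝ (fderiv ℝ f) (circleMap 0 r θ)) (circleMap 0 r θ * I)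
      (I * Complex.exp (θ * I)) + (fderiv ℝ f (circleMap 0 r θ)) (-Complex.exp (θ * I)) =
      r * D2 f (circleMap 0 r θ) (I * Complex.exp (θ * I)) (I * Complex.exp (θ * I))
        - fderiv ℝ f (circleMap 0 r θ) (Complex.exp (θ * I)) := by
    rw [h8, map_smul, ContinuousLinearMap.smul_apply, smul_eq_mul, map_neg]
    unfold D2
    ring
  rw [← h9]
  exact h3

theorem contF (hf : ∀ z ∈ ball (0:ℂ) R, ContDiffAt ℝ 2 f z) :
    ContinuousOn (fun p : ℝ × ℝ => f (circleMap 0 p.1 p.2)) (Ioo (-R) R ×ˢ univ) := by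
  intro p hp
  have h1 : ContinuousAt f (circleMap 0 p.1 p.2) := (hf _ (cm_mem hp.1 p.2)).continuousAt
  exact (ContinuousAt.comp (f := fun p : ℝ × ℝ => circleMap 0 p.1 p.2) (x := p) h1
    cm_joint.continuousAt).continuousWithinAt

theorem contF1 (hf : ∀ z ∈ ball (0:ℂ) R, ContDiffAt ℝ 2 f z) :
    ContinuousOn (fun p : ℝ × ℝ => fderiv ℝ f (circleMap 0 p.1 p.2) (Complex.exp (p.2 * I)))
      (Ioo (-R) R ×ˢ univ) := by
  intro p hp
  have h1 : ContinuousAt (fderiv ℝ f) (circleMap 0 p.1 p.2) :=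
    (fderiv_cd hf (cm_mem hp.1 p.2)).continuousAt
  have h2 := ContinuousAt.comp (f := fun p : ℝ × ℝ => circleMap 0 p.1 p.2) (x := p) h1
    cm_joint.continuousAt
  have h3 : ContinuousAt (fun p : ℝ × ℝ => Complex.exp (p.2 * I)) p := by fun_prop
  exact (h2.clm_apply h3).continuousWithinAt

theorem contD2 (hf : ∀ z ∈ ball (0:ℂ) R, ContDiffAt ℝ 2 f z) {e : ℝ → ℂ} (he : Continuous e) :
    ContinuousOn (fun p : ℝ × ℝ => D2 f (circleMap 0 p.1 p.2) (e p.2) (e p.2))
      (Ioo (-R) R ×ˢ univ) := by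
  intro p hp
  have h1 : ContinuousAt (fderiv ℝ (fderiv ℝ f)) (circleMap 0 p.1 p.2) :=
    ((fderiv_cd hf (cm_mem hp.1 p.2)).fderiv_right (m := 0) (by norm_num)).continuousAt
  have h2 := ContinuousAt.comp (f := fun p : ℝ × ℝ => circleMap 0 p.1 p.2) (x := p) h1
    cm_joint.continuousAt
  have h3 : ContinuousAt (fun p : ℝ × ℝ => e p.2) p :=
    (he.comp continuous_snd).continuousAt
  exact ((h2.clm_apply h3).clm_apply h3).continuousWithinAt

theorem contLap (hf : ∀ z ∈ ball (0:ℂ) R, ContDiffAt ℝ 2 f z) :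
    ContinuousOn (Δ f) (ball (0:ℂ) R) := by
  intro z hz
  have h1 : ContinuousAt (fderiv ℝ (fderiv ℝ f)) z :=
    ((fderiv_cd hf hz).fderiv_right (m := 0) (by norm_num)).continuousAt
  have h2 : ContinuousAt (fun x => D2 f x 1 1 + D2 f x I I) z := by
    unfold D2
    exact ((h1.clm_apply continuousAt_const).clm_apply continuousAt_const).add
      ((h1.clm_apply continuousAt_const).clm_apply continuousAt_const)
  have h3 : Δ f = fun x => D2 f x 1 1 + D2 f x I I := funext (lap_eq f)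
  rw [h3]
  exact h2.continuousWithinAt

/-- the tangential second derivative has the average of the radial first derivative -/
theorem tang (hf : ∀ z ∈ ball (0:ℂ) R, ContDiffAt ℝ 2 f z) {r : ℝ} (hr : r ∈ Ioo (-R) R) :
    ∫ θ in (0:ℝ)..2 * π, fderiv ℝ f (circleMap 0 r θ) (Complex.exp (θ * I)) =
      r * ∫ θ in (0:ℝ)..2 * π,
        D2 f (circleMap 0 r θ) (I * Complex.exp (θ * I)) (I * Complex.exp (θ * I)) := by
  have hc1 : Continuous (fun θ : ℝ => fderiv ℝ f (circleMap 0 r θ) (Complex.exp (θ * I))) := by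
    rw [← continuousOn_univ]
    exact (contF1 hf).comp (f := fun θ : ℝ => ((r, θ) : ℝ × ℝ)) (by fun_prop)
      (fun θ _ => ⟨hr, mem_univ _⟩)
  have hc2 : Continuous (fun θ : ℝ =>
      D2 f (circleMap 0 r θ) (I * Complex.exp (θ * I)) (I * Complex.exp (θ * I))) := by
    rw [← continuousOn_univ]
    exact (contD2 hf (e := fun θ => I * Complex.exp (θ * I)) (by fun_prop)).comp
      (f := fun θ : ℝ => ((r, θ) : ℝ × ℝ)) (by fun_prop) (fun θ _ => ⟨hr, mem_univ _⟩)
  have h1 := intervalIntegral.integral_eq_sub_of_hasDerivAt (a := 0) (b := 2 * π)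
    (fun θ _ => diffθ hf hr θ)
    (((hc2.const_mul r).sub hc1).intervalIntegrable _ _)
  have h2 : circleMap 0 r (2 * π) = circleMap 0 r 0 := by
    have := periodic_circleMap 0 r 0
    simpa using this
  have h3 : Complex.exp (((2 * π : ℝ) : ℂ) * I) = Complex.exp (((0 : ℝ) : ℂ) * I) := by
    push_cast
    rw [Complex.exp_two_pi_mul_I]
    simp
  rw [intervalIntegral.integral_sub ((hc2.const_mul r).intervalIntegrable _ _)
    (hc1.intervalIntegrable _ _), intervalIntegral.integral_const_mul, h2, h3, sub_self] at h1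
  linarith

/-- the mean over the circle and its two derivatives -/
noncomputable def U0 (f : ℂ → ℝ) (r : ℝ) : ℝ := ∫ θ in (0:ℝ)..2 * π, f (circleMap 0 r θ)

noncomputable def U1 (f : ℂ → ℝ) (r : ℝ) : ℝ :=
  ∫ θ in (0:ℝ)..2 * π, fderiv ℝ f (circleMap 0 r θ) (Complex.exp (θ * I))

noncomputable def U2 (f : ℂ → ℝ) (r : ℝ) : ℝ :=
  ∫ θ in (0:ℝ)..2 * π, D2 f (circleMap 0 r θ) (Complex.exp (θ * I)) (Complex.exp (θ * I))

theorem hasDerivAt_U0 (hf : ∀ z ∈ ball (0:ℂ) R, ContDiffAt ℝ 2 f z) {r : ℝ}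
    (hr : r ∈ Ioo (-R) R) : HasDerivAt (U0 f) (U1 f r) r :=
  par 0 (2 * π) isOpen_Ioo (contF hf) (contF1 hf) (fun r hr θ => diff1 hf hr θ) hr

theorem hasDerivAt_U1 (hf : ∀ z ∈ ball (0:ℂ) R, ContDiffAt ℝ 2 f z) {r : ℝ}
    (hr : r ∈ Ioo (-R) R) : HasDerivAt (U1 f) (U2 f r) r :=
  par 0 (2 * π) isOpen_Ioo (contF1 hf)
    (contD2 hf (e := fun θ => Complex.exp (θ * I)) (by fun_prop))
    (fun r hr θ => diff2 hf hr θ) hr

theorem cavg (f : ℂ → ℝ) (r : ℝ) : Real.circleAverage f 0 r = (2 * π)⁻¹ * U0 f r := by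
  rw [Real.circleAverage_def, smul_eq_mul]
  rfl

theorem lap_avg (hf : ∀ z ∈ ball (0:ℂ) R, ContDiffAt ℝ 2 f z) {r : ℝ} (hr : r ∈ Ioo (-R) R) :
    U1 f r + r * U2 f r = r * U0 (Δ f) r := by
  have hc1 : Continuous (fun θ : ℝ =>
      D2 f (circleMap 0 r θ) (Complex.exp (θ * I)) (Complex.exp (θ * I))) := by
    rw [← continuousOn_univ]
    exact (contD2 hf (e := fun θ => Complex.exp (θ * I)) (by fun_prop)).comp
      (f := fun θ : ℝ => ((r, θ) : ℝ × ℝ)) (by fun_prop) (fun θ _ => ⟨hr, mem_univ _⟩)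
  have hc2 : Continuous (fun θ : ℝ =>
      D2 f (circleMap 0 r θ) (I * Complex.exp (θ * I)) (I * Complex.exp (θ * I))) := by
    rw [← continuousOn_univ]
    exact (contD2 hf (e := fun θ => I * Complex.exp (θ * I)) (by fun_prop)).comp
      (f := fun θ : ℝ => ((r, θ) : ℝ × ℝ)) (by fun_prop) (fun θ _ => ⟨hr, mem_univ _⟩)
  have h1 : U1 f r = r * ∫ θ in (0:ℝ)..2 * π,
      D2 f (circleMap 0 r θ) (I * Complex.exp (θ * I)) (I * Complex.exp (θ * I)) := tang hf hr
  rw [h1, ← mul_add]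
  congr 1
  unfold U2 U0
  rw [← intervalIntegral.integral_add (hc2.intervalIntegrable _ _) (hc1.intervalIntegrable _ _)]
  refine intervalIntegral.integral_congr fun θ _ => ?_
  have h2 := D2_rot (hf _ (cm_mem hr θ)) (Complex.exp (θ * I))
  rw [Complex.norm_exp_ofReal_mul_I] at h2
  linarith

/-- `r log(1/r)` is continuous -/
theorem negMulLog_eq (r : ℝ) : r * Real.log (1 / r) = Real.negMulLog r := by
  rw [one_div, Real.log_inv, Real.negMulLog]
  ring

theorem continuous_rlog : Continuous (fun r : ℝ => r * Real.log (1 / r)) := by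
  have h1 : (fun r : ℝ => r * Real.log (1 / r)) = Real.negMulLog := funext negMulLog_eq
  rw [h1]
  exact Real.continuous_negMulLog

theorem rlog_nonneg {r : ℝ} (h0 : 0 ≤ r) (h1 : r ≤ 1) : 0 ≤ r * Real.log (1 / r) := by
  rw [negMulLog_eq]
  exact Real.negMulLog_nonneg h0 h1

theorem cont_avg {psi : ℂ → ℝ} (hp : ContinuousOn psi (closedBall 0 1)) :
    ContinuousOn (Real.circleAverage psi 0) (Icc 0 1) := by
  refine Real.ContinuousOn.circleAverage ?_ (fun r hr => hr.1)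
  refine hp.mono fun z hz => ?_
  have h1 : ‖z - 0‖ ≤ 1 := hz.2
  rw [sub_zero] at h1
  exact mem_closedBall_zero_iff.2 h1

theorem Gn_int {psi : ℂ → ℝ} (hp : ContinuousOn psi (closedBall 0 1)) :
    IntervalIntegrable (fun r : ℝ => r * Real.log (1 / r) * Real.circleAverage psi 0 r)
      volume 0 1 := by
  refine ContinuousOn.intervalIntegrable ?_
  rw [uIcc_of_le zero_le_one]
  exact continuous_rlog.continuousOn.mul (cont_avg hp)

/-- Green's formula for the disc of radius `1` -/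
theorem green_aux (hR : 1 < R) (hf : ∀ z ∈ ball (0:ℂ) R, ContDiffAt ℝ 2 f z) :
    Real.circleAverage f 0 1 - f 0 = Gn (Δ f) := by
  have hI : ∀ r ∈ Icc (0:ℝ) 1, r ∈ Ioo (-R) R := fun r hr =>
    ⟨by linarith [hr.1], by linarith [hr.2]⟩
  have hlap : ContinuousOn (Δ f) (closedBall 0 1) :=
    (contLap hf).mono (closedBall_subset_ball hR)
  set W : ℝ → ℝ := fun s => s * Real.log (1 / s) * U1 f s + U0 f s with hW
  have hWc : ContinuousOn W (Icc 0 1) := by
    intro s hs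
    have h1 := (hasDerivAt_U1 hf (hI s hs)).continuousAt
    have h0 := (hasDerivAt_U0 hf (hI s hs)).continuousAt
    exact ((continuous_rlog.continuousAt.mul h1).add h0).continuousWithinAt
  have hWd : ∀ s ∈ Ioo (0:ℝ) 1,
      HasDerivAt W (s * Real.log (1 / s) * U0 (Δ f) s) s := by
    intro s hs
    have hs' := hI s ⟨hs.1.le, hs.2.le⟩
    have h1 := hasDerivAt_U1 hf hs'
    have h0 := hasDerivAt_U0 hf hs'
    have hl : HasDerivAt (fun s : ℝ => s * Real.log (1 / s)) (-Real.log s - 1) s := by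
      have h2 := Real.hasDerivAt_negMulLog hs.1.ne'
      have h3 : (fun r : ℝ => r * Real.log (1 / r)) = Real.negMulLog := funext negMulLog_eq
      rw [h3]
      exact h2
    have h4 := (hl.mul h1).add h0
    have h5 : s * Real.log (1 / s) * U0 (Δ f) s =
        (-Real.log s - 1) * U1 f s + s * Real.log (1 / s) * U2 f s + U1 f s := by
      have h6 := lap_avg hf hs'
      have h7 : Real.log (1 / s) = -Real.log s := by rw [one_div, Real.log_inv]
      rw [h7]
      linear_combination (Real.log s) * h6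
    rw [h5]
    exact h4
  have hint : IntervalIntegrable (fun s : ℝ => s * Real.log (1 / s) * U0 (Δ f) s)
      volume 0 1 := by
    have h1 := (Gn_int hlap).const_mul (2 * π)
    refine h1.congr fun s _ => ?_
    simp only [cavg]
    have : (2 * π) ≠ 0 := by positivity
    field_simp
  have h1 := intervalIntegral.integral_eq_sub_of_hasDerivAt_of_le zero_le_one hWc hWd hint
  have hp : (2 * π) ≠ 0 := by positivity
  have h2 : W 1 = 2 * π * Real.circleAverage f 0 1 := by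
    rw [hW, cavg]
    simp only [one_div, inv_one, Real.log_one, mul_zero, zero_mul, zero_add]
    field_simp
  have h3 : W 0 = 2 * π * f 0 := by
    rw [hW]
    simp only [zero_mul, zero_add, U0, circleMap_zero_radius]
    simp
  have h4 : ∫ s in (0:ℝ)..1, s * Real.log (1 / s) * U0 (Δ f) s = 2 * π * Gn (Δ f) := by
    unfold Gn
    rw [← intervalIntegral.integral_const_mul]
    refine intervalIntegral.integral_congr fun s _ => ?_
    simp only [cavg]
    field_simp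
  rw [h2, h3, h4] at h1
  have h5 : 2 * π * (Real.circleAverage f 0 1 - f 0 - Gn (Δ f)) = 0 := by linarith
  rcases mul_eq_zero.1 h5 with h6 | h6
  · exact absurd h6 hp
  · linarith

end

theorem exists_ball {f : ℂ → ℝ} (hf : ∀ z ∈ closedBall (0:ℂ) 1, ContDiffAt ℝ 2 f z) :
    ∃ R : ℝ, 1 < R ∧ ∀ z ∈ ball (0:ℂ) R, ContDiffAt ℝ 2 f z := by
  have hU : IsOpen {z : ℂ | ContDiffAt ℝ 2 f z} := by
    rw [isOpen_iff_eventually]
    intro z hz
    exact (show ContDiffAt ℝ 2 f z from hz).eventually (by simp)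
  obtain ⟨δ, hδ, hδU⟩ := (isCompact_closedBall (0:ℂ) 1).exists_thickening_subset_open hU hf
  refine ⟨1 + δ, by linarith, fun z hz => hδU ?_⟩
  rw [thickening_closedBall hδ zero_le_one]
  rwa [add_comm]

/-- **(D1)** Green's formula on the unit disc -/
theorem disc_green {f : ℂ → ℝ} (hf : ∀ z ∈ closedBall (0:ℂ) 1, ContDiffAt ℝ 2 f z) :
    Real.circleAverage f 0 1 - f 0 = Gn (Δ f) := by
  obtain ⟨R, hR, h⟩ := exists_ball hf
  exact green_aux hR h

theorem lap_cont {f : ℂ → ℝ} (hf : ∀ z ∈ closedBall (0:ℂ) 1, ContDiffAt ℝ 2 f z) :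
    ContinuousOn (Δ f) (closedBall 0 1) := by
  obtain ⟨R, hR, h⟩ := exists_ball hf
  exact (contLap h).mono (closedBall_subset_ball hR)

theorem circleInt {psi : ℂ → ℝ} (hp : ContinuousOn psi (closedBall 0 1)) {r : ℝ} (h0 : 0 ≤ r)
    (h1 : r ≤ 1) : CircleIntegrable psi 0 r := by
  refine ContinuousOn.circleIntegrable h0 (hp.mono ?_)
  exact sphere_subset_closedBall.trans (closedBall_subset_closedBall h1)

theorem Gn_mono {ψ₁ ψ₂ : ℂ → ℝ} (h1 : ContinuousOn ψ₁ (closedBall 0 1))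
    (h2 : ContinuousOn ψ₂ (closedBall 0 1)) (h : ∀ z ∈ ball (0:ℂ) 1, ψ₁ z ≤ ψ₂ z) :
    Gn ψ₁ ≤ Gn ψ₂ := by
  unfold Gn
  refine intervalIntegral.integral_mono_on_of_le_Ioo zero_le_one (Gn_int h1) (Gn_int h2)
    fun r hr => ?_
  refine mul_le_mul_of_nonneg_left ?_ (rlog_nonneg hr.1.le hr.2.le)
  refine Real.circleAverage_mono (circleInt h1 hr.1.le hr.2.le) (circleInt h2 hr.1.le hr.2.le)
    fun z hz => h z ?_
  rw [abs_of_pos hr.1] at hz
  exact closedBall_subset_ball hr.2 (sphere_subset_closedBall hz)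

theorem Gn_congr {ψ₁ ψ₂ : ℂ → ℝ} (h : ∀ z ∈ ball (0:ℂ) 1, ψ₁ z = ψ₂ z) : Gn ψ₁ = Gn ψ₂ := by
  unfold Gn
  rw [intervalIntegral.integral_of_le zero_le_one, intervalIntegral.integral_of_le zero_le_one,
    integral_Ioc_eq_integral_Ioo, integral_Ioc_eq_integral_Ioo]
  refine setIntegral_congr_fun measurableSet_Ioo fun r hr => ?_
  have h1 : Real.circleAverage ψ₁ 0 r = Real.circleAverage ψ₂ 0 r := by
    refine Real.circleAverage_congr_sphere fun z hz => h z ?_
    rw [abs_of_pos hr.1] at hz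
    exact closedBall_subset_ball hr.2 (sphere_subset_closedBall hz)
  simp only [h1]

theorem Gn_add {ψ₁ ψ₂ : ℂ → ℝ} (h1 : ContinuousOn ψ₁ (closedBall 0 1))
    (h2 : ContinuousOn ψ₂ (closedBall 0 1)) :
    Gn (fun z => ψ₁ z + ψ₂ z) = Gn ψ₁ + Gn ψ₂ := by
  unfold Gn
  rw [← intervalIntegral.integral_add (Gn_int h1) (Gn_int h2)]
  refine intervalIntegral.integral_congr fun r hr => ?_
  rw [uIcc_of_le zero_le_one] at hr
  rw [Real.circleAverage_fun_add (circleInt h1 hr.1 hr.2) (circleInt h2 hr.1 hr.2)]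
  ring

theorem Gn_sub {ψ₁ ψ₂ : ℂ → ℝ} (h1 : ContinuousOn ψ₁ (closedBall 0 1))
    (h2 : ContinuousOn ψ₂ (closedBall 0 1)) :
    Gn (fun z => ψ₁ z - ψ₂ z) = Gn ψ₁ - Gn ψ₂ := by
  unfold Gn
  rw [← intervalIntegral.integral_sub (Gn_int h1) (Gn_int h2)]
  refine intervalIntegral.integral_congr fun r hr => ?_
  rw [uIcc_of_le zero_le_one] at hr
  rw [Real.circleAverage_fun_sub (circleInt h1 hr.1 hr.2) (circleInt h2 hr.1 hr.2)]
  ring

theorem Gn_const_mul (c : ℝ) (ψ : ℂ → ℝ) : Gn (fun z => c * ψ z) = c * Gn ψ := by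
  unfold Gn
  rw [← intervalIntegral.integral_const_mul]
  refine intervalIntegral.integral_congr fun r _ => ?_
  have h1 : Real.circleAverage (fun z => c * ψ z) 0 r = c * Real.circleAverage ψ 0 r := by
    have := Real.circleAverage_fun_smul (𝕜 := ℝ) (a := c) (f := ψ) (c := 0) (R := r)
    simpa using this
  simp only [h1]
  ring

theorem Gn_nonneg {ψ : ℂ → ℝ} (h : ∀ z ∈ ball (0:ℂ) 1, 0 ≤ ψ z) : 0 ≤ Gn ψ := by
  unfold Gn
  rw [intervalIntegral.integral_of_le zero_le_one, integral_Ioc_eq_integral_Ioo]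
  refine setIntegral_nonneg measurableSet_Ioo fun r hr => ?_
  refine mul_nonneg (rlog_nonneg hr.1.le hr.2.le) ?_
  refine Real.circleAverage_nonneg_of_nonneg fun z hz => h z ?_
  rw [abs_of_pos hr.1] at hz
  exact closedBall_subset_ball hr.2 (sphere_subset_closedBall hz)

/-- **(D1')** lower bound from `ψ ≤ Δ f` -/
theorem disc_green_ge {f psi : ℂ → ℝ} (hf : ∀ z ∈ closedBall (0:ℂ) 1, ContDiffAt ℝ 2 f z)
    (hp : ContinuousOn psi (closedBall 0 1)) (h : ∀ z ∈ ball (0:ℂ) 1, psi z ≤ Δ f z) :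
    Gn psi ≤ Real.circleAverage f 0 1 - f 0 := by
  rw [disc_green hf]
  exact Gn_mono hp (lap_cont hf) h

theorem disc_green_le {f psi : ℂ → ℝ} (hf : ∀ z ∈ closedBall (0:ℂ) 1, ContDiffAt ℝ 2 f z)
    (hp : ContinuousOn psi (closedBall 0 1)) (h : ∀ z ∈ ball (0:ℂ) 1, Δ f z ≤ psi z) :
    Real.circleAverage f 0 1 - f 0 ≤ Gn psi := by
  rw [disc_green hf]
  exact Gn_mono (lap_cont hf) hp h

/-- `Gn 1 = 1/4` -/
theorem Gn_one : Gn (fun _ => 1) = 1 / 4 := by
  have h1 : ∀ z ∈ closedBall (0:ℂ) 1, ContDiffAt ℝ 2 (fun z : ℂ => ‖z‖ ^ 2) z :=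
    fun z _ => (contDiff_norm_sq ℝ).contDiffAt
  have h2 := disc_green h1
  have h3 : Δ (fun z : ℂ => ‖z‖ ^ 2) = fun _ => (4:ℝ) * 1 := by
    funext z
    rw [lap_eq]
    have e1 : fderiv ℝ (fun z : ℂ => ‖z‖ ^ 2) = fun z => 2 • (innerSL ℝ z) := by
      funext z
      exact (hasStrictFDerivAt_norm_sq z).hasFDerivAt.fderiv
    have e2 : ∀ z v w : ℂ, D2 (fun z : ℂ => ‖z‖ ^ 2) z v w = 2 * inner ℝ v w := by
      intro z v w
      unfold D2
      rw [e1]
      have e3 : HasFDerivAt (fun z : ℂ => 2 • (innerSL ℝ z)) (2 • (innerSL ℝ (E := ℂ))) z :=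
        (innerSL ℝ (E := ℂ)).hasFDerivAt.const_smul 2
      rw [e3.fderiv]
      have e4 : ((innerSL ℝ) v) w = inner ℝ v w := rfl
      simp [e4]
      ring
    rw [e2, e2]
    simp
    norm_num
  rw [h3, Gn_const_mul] at h2
  have h4 : Real.circleAverage (fun z : ℂ => ‖z‖ ^ 2) 0 1 = 1 := by
    refine Eq.trans (Real.circleAverage_congr_sphere (f₂ := fun _ => (1:ℝ)) fun z hz => ?_)
      (Real.circleAverage_const (1:ℝ) (0:ℂ) 1)
    rw [abs_one, mem_sphere_zero_iff_norm] at hz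
    simp only [hz]
    norm_num
  rw [h4] at h2
  simp at h2
  linarith

end P365T2.H720
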