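import Vale.Agent.P365.T2.H720.Green

set_option linter.all false

/-!
# Green's formula on the unit disc, II

* `lap_comp` : `Δ (H ∘ φ) z = |φ' z|² (Δ H) (φ z)` for holomorphic `φ`;
* `disc_green_open` : Green's formula for `f` continuous on the closed disc and `C²` with
  `0 ≤ Δ f` on the open disc only.
-/

namespace P365T2.H720

open Complex MeasureTheory Set Filter Topology Metric InnerProductSpace Laplacian
open scoped Real

/-- the second derivative along a line -/
theorem D2_line {f : ℂ → ℝ} {z : ℂ} (hf : ContDiffAt ℝ 2 f z) (v u : ℂ) :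
    HasDerivAt (fun t : ℝ => fderiv ℝ f (z + t * v) u) (D2 f z v u) 0 := by
  have h0 : HasDerivAt (fun t : ℝ => z + (t : ℂ) * v) v 0 := by
    have h1 : HasDerivAt (fun t : ℝ => (t : ℂ)) 1 0 := Complex.ofRealCLM.hasDerivAt
    simpa using (h1.mul_const v).const_add z
  have h1 : HasFDerivAt (fderiv ℝ f) (fderiv ℝ (fderiv ℝ f) z) (z + ((0 : ℝ) : ℂ) * v) := by
    have h2 : z + ((0 : ℝ) : ℂ) * v = z := by simp
    rw [h2]
    exact ((hf.fderiv_right (m := 1) (by norm_num)).differentiableAt (by norm_num)).hasFDerivAt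
  have h2 := h1.comp_hasDerivAt (0 : ℝ) h0
  have h3 := h2.clm_apply (hasDerivAt_const (0 : ℝ) u)
  simpa [D2] using h3

theorem fderiv_comp_holo {H : ℂ → ℝ} {φ : ℂ → ℂ} {z : ℂ} (hH : DifferentiableAt ℝ H (φ z))
    (hφ : DifferentiableAt ℂ φ z) (u : ℂ) :
    fderiv ℝ (fun z => H (φ z)) z u = fderiv ℝ H (φ z) (deriv φ z * u) := by
  have h1 : HasFDerivAt φ (deriv φ z • (1 : ℂ →L[ℝ] ℂ)) z :=
    hφ.hasDerivAt.complexToReal_fderiv
  have h2 := (hH.hasFDerivAt.comp z h1).fderiv
  have h3 : fderiv ℝ (fun z => H (φ z)) z = fderiv ℝ (H ∘ φ) z := rfl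
  rw [h3, h2]
  simp

/-- conformal covariance of the Laplacian -/
theorem lap_comp {H : ℂ → ℝ} {φ : ℂ → ℂ} {z : ℂ} (hH : ContDiffAt ℝ 2 H (φ z))
    (hφ : AnalyticAt ℂ φ z) :
    Δ (fun z => H (φ z)) z = ‖deriv φ z‖ ^ 2 * Δ H (φ z) := by
  have hφc : ContDiffAt ℝ 2 φ z := (hφ.contDiffAt (n := 2)).restrict_scalars ℝ
  have hc : ContDiffAt ℝ 2 (fun z => H (φ z)) z := hH.comp z hφc
  have key : ∀ v u : ℂ, D2 (fun z => H (φ z)) z v u =
      D2 H (φ z) (deriv φ z * v) (deriv φ z * u) +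
        fderiv ℝ H (φ z) (deriv (deriv φ) z * v * u) := by
    intro v u
    have hl : Tendsto (fun t : ℝ => z + (t : ℂ) * v) (𝓝 0) (𝓝 z) := by
      have h1 : Continuous (fun t : ℝ => z + (t : ℂ) * v) := by fun_prop
      have h2 := h1.tendsto 0
      simpa using h2
    have e1 : ∀ᶠ w in 𝓝 z, fderiv ℝ (fun z => H (φ z)) w u =
        fderiv ℝ H (φ w) (deriv φ w * u) := by
      have a1 : ∀ᶠ w in 𝓝 z, AnalyticAt ℂ φ w := hφ.eventually_analyticAt
      have a2 : ∀ᶠ w in 𝓝 z, ContDiffAt ℝ 2 H (φ w) :=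
        hφ.continuousAt.eventually (hH.eventually (by simp))
      filter_upwards [a1, a2] with w h1 h2
      exact fderiv_comp_holo (h2.differentiableAt (by norm_num)) h1.differentiableAt u
    have e2 : (fun t : ℝ => fderiv ℝ (fun z => H (φ z)) (z + t * v) u) =ᶠ[𝓝 0]
        fun t : ℝ => fderiv ℝ H (φ (z + t * v)) (deriv φ (z + t * v) * u) :=
      hl.eventually e1
    have h0 : HasDerivAt (fun t : ℝ => z + (t : ℂ) * v) v 0 := by
      have h1 : HasDerivAt (fun t : ℝ => (t : ℂ)) 1 0 := Complex.ofRealCLM.hasDerivAt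
      simpa using (h1.mul_const v).const_add z
    have hz : z + ((0 : ℝ) : ℂ) * v = z := by simp
    have g1 : HasDerivAt (fun t : ℝ => φ (z + t * v)) (deriv φ z * v) 0 := by
      have h1 : HasFDerivAt φ (deriv φ z • (1 : ℂ →L[ℝ] ℂ)) (z + ((0 : ℝ) : ℂ) * v) := by
        rw [hz]
        exact hφ.differentiableAt.hasDerivAt.complexToReal_fderiv
      have h2 := h1.comp_hasDerivAt (0 : ℝ) h0
      have h3 : (deriv φ z • (1 : ℂ →L[ℝ] ℂ)) v = deriv φ z * v := by simp
      rw [h3] at h2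
      exact h2
    have g2 : HasDerivAt (fun t : ℝ => deriv φ (z + t * v)) (deriv (deriv φ) z * v) 0 := by
      have h1 : HasFDerivAt (deriv φ) (deriv (deriv φ) z • (1 : ℂ →L[ℝ] ℂ))
          (z + ((0 : ℝ) : ℂ) * v) := by
        rw [hz]
        exact hφ.deriv.differentiableAt.hasDerivAt.complexToReal_fderiv
      have h2 := h1.comp_hasDerivAt (0 : ℝ) h0
      have h3 : (deriv (deriv φ) z • (1 : ℂ →L[ℝ] ℂ)) v = deriv (deriv φ) z * v := by simp
      rw [h3] at h2
      exact h2
    have g3 : HasDerivAt (fun t : ℝ => fderiv ℝ H (φ (z + t * v)))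
        (fderiv ℝ (fderiv ℝ H) (φ z) (deriv φ z * v)) 0 := by
      have h1 : HasFDerivAt (fderiv ℝ H) (fderiv ℝ (fderiv ℝ H) (φ z))
          (φ (z + ((0 : ℝ) : ℂ) * v)) := by
        rw [hz]
        exact ((hH.fderiv_right (m := 1) (by norm_num)).differentiableAt
          (by norm_num)).hasFDerivAt
      exact h1.comp_hasDerivAt (0 : ℝ) g1
    have g4 := g3.clm_apply (g2.mul_const u)
    have g5 := (D2_line hc v u).congr_of_eventuallyEq e2.symm
    have g6 := g5.unique g4
    rw [g6]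
    simp only [D2, Complex.ofReal_zero, zero_mul, add_zero]
  rw [lap_eq, key 1 1, key I I]
  have h1 := D2_rot hH (deriv φ z)
  have h2 : deriv (deriv φ) z * I * I = -(deriv (deriv φ) z * 1 * 1) := by
    have := Complex.I_mul_I
    linear_combination (deriv (deriv φ) z) * this
  rw [h2, map_neg]
  have h3 : deriv φ z * I = I * deriv φ z := mul_comm _ _
  rw [h3, mul_one, ← h1]
  ring

/-! ### smaller radii -/

theorem circleAverage_scale (f : ℂ → ℝ) (R r : ℝ) :
    Real.circleAverage (fun z => f ((R : ℂ) * z)) 0 r = Real.circleAverage f 0 (R * r) := by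
  rw [cavg, cavg]
  congr 1
  unfold U0
  refine intervalIntegral.integral_congr fun θ _ => ?_
  simp only [circleMap, Complex.ofReal_mul]
  congr 1
  ring

theorem lap_scale {f : ℂ → ℝ} {R : ℝ} {z : ℂ} (hf : ContDiffAt ℝ 2 f ((R : ℂ) * z)) :
    Δ (fun z => f ((R : ℂ) * z)) z = R ^ 2 * Δ f ((R : ℂ) * z) := by
  have h1 : AnalyticAt ℂ (fun z : ℂ => (R : ℂ) * z) z := by fun_prop
  rw [lap_comp (φ := fun z : ℂ => (R : ℂ) * z) hf h1]
  have h2 : deriv (fun z : ℂ => (R : ℂ) * z) z = R := by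
    have := (hasDerivAt_id z).const_mul (R : ℂ)
    simpa using this.deriv
  rw [h2, Complex.norm_real, Real.norm_eq_abs, sq_abs]

variable {f : ℂ → ℝ}

/-- Green's formula for the disc of radius `R < 1`, written on `(0, 1)` -/
theorem green_R (hf : ∀ z ∈ ball (0:ℂ) 1, ContDiffAt ℝ 2 f z) {R : ℝ} (h0 : 0 < R) (h1 : R < 1) :
    Real.circleAverage f 0 R - f 0 =
      ∫ s in Ioo (0:ℝ) 1, (Ioo (0:ℝ) R).indicator
        (fun s => s * Real.log (R / s) * Real.circleAverage (Δ f) 0 s) s := by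
  have hmem : ∀ z ∈ closedBall (0:ℂ) 1, (R : ℂ) * z ∈ ball (0:ℂ) 1 := by
    intro z hz
    rw [mem_closedBall_zero_iff] at hz
    rw [mem_ball_zero_iff, norm_mul, Complex.norm_real, Real.norm_of_nonneg h0.le]
    nlinarith [norm_nonneg z]
  have hc : ∀ z ∈ closedBall (0:ℂ) 1, ContDiffAt ℝ 2 (fun z => f ((R : ℂ) * z)) z := by
    intro z hz
    exact (hf _ (hmem z hz)).comp z (contDiffAt_const.mul contDiffAt_id)
  have h2 := disc_green hc
  rw [circleAverage_scale, mul_one, mul_zero] at h2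
  rw [h2]
  have h3 : Gn (Δ (fun z => f ((R : ℂ) * z))) = Gn (fun z => R ^ 2 * Δ f ((R : ℂ) * z)) :=
    Gn_congr fun z hz => lap_scale (hf _ (hmem z (ball_subset_closedBall hz)))
  rw [h3, Gn_const_mul]
  unfold Gn
  simp only [circleAverage_scale (Δ f)]
  rw [setIntegral_indicator measurableSet_Ioo]
  have h4 : Ioo (0:ℝ) 1 ∩ Ioo 0 R = Ioo 0 R := by
    rw [inter_eq_right]
    exact Ioo_subset_Ioo_right h1.le
  rw [h4, ← integral_Ioc_eq_integral_Ioo, ← intervalIntegral.integral_of_le h0.le]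
  have h5 := intervalIntegral.integral_comp_mul_left
    (f := fun s => s * Real.log (R / s) * Real.circleAverage (Δ f) 0 s) (a := 0) (b := 1) h0.ne'
  simp only [mul_zero, mul_one, smul_eq_mul] at h5
  have h6 : ∫ s in (0:ℝ)..R, s * Real.log (R / s) * Real.circleAverage (Δ f) 0 s =
      R * ∫ r in (0:ℝ)..1, R * r * Real.log (R / (R * r)) *
        Real.circleAverage (Δ f) 0 (R * r) := by
    rw [h5]
    field_simp
  rw [h6, ← intervalIntegral.integral_const_mul, ← intervalIntegral.integral_const_mul]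
  refine intervalIntegral.integral_congr fun r _ => ?_
  have h7 : R / (R * r) = 1 / r := by
    rcases eq_or_ne r 0 with h | h
    · simp [h]
    · field_simp
  rw [h7]
  ring

/-- **Green's formula, open version** -/
theorem disc_green_open (hfc : ContinuousOn f (closedBall 0 1))
    (hf : ∀ z ∈ ball (0:ℂ) 1, ContDiffAt ℝ 2 f z) (hl : ∀ z ∈ ball (0:ℂ) 1, 0 ≤ Δ f z) :
    IntervalIntegrable (fun r : ℝ => r * Real.log (1 / r) * Real.circleAverage (Δ f) 0 r)
      volume 0 1 ∧ Real.circleAverage f 0 1 - f 0 = Gn (Δ f) := by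
  set A : ℝ → ℝ := Real.circleAverage (Δ f) 0 with hA
  have hcf : CircleIntegrable f 0 1 := circleInt hfc zero_le_one le_rfl
  have hA0 : ∀ s ∈ Ioo (0:ℝ) 1, 0 ≤ A s := by
    intro s hs
    refine Real.circleAverage_nonneg_of_nonneg fun z hz => hl z ?_
    rw [abs_of_pos hs.1] at hz
    exact closedBall_subset_ball hs.2 (sphere_subset_closedBall hz)
  have hAc : ContinuousOn A (Ico 0 1) := by
    refine Real.ContinuousOn.circleAverage ?_ (fun r hr => hr.1)
    have h1 : ContinuousOn (Δ f) (ball (0:ℂ) 1) := contLap hf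
    refine h1.mono fun z hz => ?_
    have h2 : ‖z - 0‖ < 1 := hz.2
    rw [sub_zero] at h2
    exact mem_ball_zero_iff.2 h2
  have hmeas : AEStronglyMeasurable (fun s : ℝ => s * Real.log (1 / s) * A s)
      (volume.restrict (Ioo 0 1)) := by
    refine (ContinuousOn.aestronglyMeasurable ?_ measurableSet_Ioo)
    exact continuous_rlog.continuousOn.mul (hAc.mono Ioo_subset_Ico_self)
  -- the approximating radii
  let R : ℕ → ℝ := fun n => 1 - 1 / ((n : ℝ) + 2)
  have hR0 : ∀ n, 0 < R n := by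
    intro n
    have : 1 / ((n : ℝ) + 2) < 1 := by
      rw [div_lt_one (by positivity)]
      have : (0:ℝ) ≤ n := n.cast_nonneg
      linarith
    show 0 < 1 - 1 / ((n : ℝ) + 2)
    linarith
  have hR1 : ∀ n, R n < 1 := by
    intro n
    have : 0 < 1 / ((n : ℝ) + 2) := by positivity
    show 1 - 1 / ((n : ℝ) + 2) < 1
    linarith
  have hRm : Monotone R := by
    intro m n hmn
    have h1 : (m : ℝ) ≤ n := by exact_mod_cast hmn
    have h2 : 1 / ((n : ℝ) + 2) ≤ 1 / ((m : ℝ) + 2) := by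
      apply one_div_le_one_div_of_le (by positivity)
      linarith
    show 1 - 1 / ((m : ℝ) + 2) ≤ 1 - 1 / ((n : ℝ) + 2)
    linarith
  have hRt : Tendsto R atTop (𝓝 1) := by
    have h1 : Tendsto (fun n : ℕ => 1 / ((n : ℝ) + 2)) atTop (𝓝 0) := by
      have h2 : Tendsto (fun n : ℕ => (n : ℝ) + 2) atTop atTop :=
        tendsto_atTop_add_const_right _ _ tendsto_natCast_atTop_atTop
      exact h2.const_div_atTop 1
    have h3 := h1.const_sub 1
    rw [sub_zero] at h3
    exact h3
  let g : ℕ → ℝ → ℝ := fun n => (Ioo (0:ℝ) (R n)).indicator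
    (fun s => s * Real.log (R n / s) * A s)
  let G : ℝ → ℝ := fun s => s * Real.log (1 / s) * A s
  have hg0 : ∀ n, ∀ s ∈ Ioo (0:ℝ) 1, 0 ≤ g n s := by
    intro n s hs
    show 0 ≤ (Ioo (0:ℝ) (R n)).indicator (fun s => s * Real.log (R n / s) * A s) s
    by_cases h : s ∈ Ioo (0:ℝ) (R n)
    · rw [indicator_of_mem h]
      refine mul_nonneg (mul_nonneg hs.1.le (Real.log_nonneg ?_)) (hA0 s hs)
      rw [le_div_iff₀ hs.1]
      linarith [h.2]
    · rw [indicator_of_notMem h]
  have hgm : ∀ s ∈ Ioo (0:ℝ) 1, Monotone fun n => g n s := by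
    intro s hs m n hmn
    show (Ioo (0:ℝ) (R m)).indicator (fun s => s * Real.log (R m / s) * A s) s ≤ g n s
    by_cases h : s ∈ Ioo (0:ℝ) (R m)
    · have h' : s ∈ Ioo (0:ℝ) (R n) := ⟨h.1, h.2.trans_le (hRm hmn)⟩
      show _ ≤ (Ioo (0:ℝ) (R n)).indicator (fun s => s * Real.log (R n / s) * A s) s
      rw [indicator_of_mem h, indicator_of_mem h']
      refine mul_le_mul_of_nonneg_right (mul_le_mul_of_nonneg_left ?_ hs.1.le) (hA0 s hs)
      refine Real.log_le_log (div_pos (hR0 m) hs.1) ?_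
      exact div_le_div_of_nonneg_right (hRm hmn) hs.1.le
    · rw [indicator_of_notMem h]
      exact hg0 n s hs
  have hgt : ∀ s ∈ Ioo (0:ℝ) 1, Tendsto (fun n => g n s) atTop (𝓝 (G s)) := by
    intro s hs
    have h1 : ∀ᶠ n in atTop, s < R n := hRt.eventually (lt_mem_nhds hs.2)
    have h2 : Tendsto (fun n => s * Real.log (R n / s) * A s) atTop (𝓝 (G s)) := by
      have h3 : Tendsto (fun n => R n / s) atTop (𝓝 (1 / s)) := hRt.div_const s
      have h4 := (Real.continuousAt_log (one_div_pos.2 hs.1).ne').tendsto.comp h3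
      exact (h4.const_mul s).mul_const (A s)
    refine h2.congr' ?_
    filter_upwards [h1] with n hn
    show _ = (Ioo (0:ℝ) (R n)).indicator (fun s => s * Real.log (R n / s) * A s) s
    rw [indicator_of_mem (show s ∈ Ioo (0:ℝ) (R n) from ⟨hs.1, hn⟩)]
  have hgmeas : ∀ n, AEStronglyMeasurable (g n) (volume.restrict (Ioo 0 1)) := by
    intro n
    show AEStronglyMeasurable ((Ioo (0:ℝ) (R n)).indicator
      (fun s => s * Real.log (R n / s) * A s)) _
    rw [aestronglyMeasurable_indicator_iff measurableSet_Ioo]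
    refine AEStronglyMeasurable.mono_measure ?_
      (Measure.restrict_mono_measure Measure.restrict_le_self _)
    refine ContinuousOn.aestronglyMeasurable ?_ measurableSet_Ioo
    refine ContinuousOn.mul (continuousOn_id.mul ?_)
      (hAc.mono fun s hs => ⟨hs.1.le, hs.2.trans (hR1 n)⟩)
    refine ContinuousOn.log (continuousOn_const.div continuousOn_id fun s hs => hs.1.ne') ?_
    intro s hs
    exact (div_pos (hR0 n) hs.1).ne'
  have hRi : ∀ n, ∫ s in Ioo (0:ℝ) 1, g n s = Real.circleAverage f 0 (R n) - f 0 := fun n =>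
    (green_R hf (hR0 n) (hR1 n)).symm
  have hgi : ∀ n, IntegrableOn (g n) (Ioo 0 1) := by
    intro n
    show IntegrableOn ((Ioo (0:ℝ) (R n)).indicator
      (fun s => s * Real.log (R n / s) * A s)) _
    have h1 : IntegrableOn (fun s => s * Real.log (R n / s) * A s) (Icc 0 (R n)) := by
      refine ContinuousOn.integrableOn_Icc ?_
      refine ContinuousOn.mul ?_ (hAc.mono fun s hs => ⟨hs.1, hs.2.trans_lt (hR1 n)⟩)
      have h2 : Continuous (fun s : ℝ => s * Real.log (R n / s)) := by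
        have h3 : (fun s : ℝ => s * Real.log (R n / s)) =
            fun s => s * Real.log (R n) + s * Real.log (1 / s) := by
          funext s
          rcases eq_or_ne s 0 with h | h
          · simp [h]
          · rw [Real.log_div (hR0 n).ne' h, one_div, Real.log_inv]
            ring
        rw [h3]
        exact (continuous_id.mul continuous_const).add continuous_rlog
      exact h2.continuousOn
    rw [IntegrableOn, integrable_indicator_iff measurableSet_Ioo, IntegrableOn,
      Measure.restrict_restrict measurableSet_Ioo]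
    refine h1.mono_set ?_
    intro s hs
    exact ⟨hs.1.1.le, hs.1.2.le⟩
  have hcont : Tendsto (fun n => Real.circleAverage f 0 (R n) - f 0) atTop
      (𝓝 (Real.circleAverage f 0 1 - f 0)) := by
    have h1 : ContinuousWithinAt (Real.circleAverage f 0) (Icc 0 1) 1 :=
      cont_avg hfc 1 ⟨zero_le_one, le_rfl⟩
    have h2 : Tendsto R atTop (𝓝[Icc 0 1] 1) :=
      tendsto_nhdsWithin_iff.2 ⟨hRt, Eventually.of_forall fun n => ⟨(hR0 n).le, (hR1 n).le⟩⟩
    exact (h1.tendsto.comp h2).sub_const _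
  -- monotone convergence
  have hl1 : Tendsto (fun n => ∫⁻ s in Ioo (0:ℝ) 1, ENNReal.ofReal (g n s)) atTop
      (𝓝 (∫⁻ s in Ioo (0:ℝ) 1, ENNReal.ofReal (G s))) := by
    refine lintegral_tendsto_of_tendsto_of_monotone
      (fun n => (hgmeas n).aemeasurable.ennreal_ofReal) ?_ ?_
    · refine (ae_restrict_iff' measurableSet_Ioo).2 (ae_of_all _ fun s hs m n hmn => ?_)
      exact ENNReal.ofReal_le_ofReal (hgm s hs hmn)
    · refine (ae_restrict_iff' measurableSet_Ioo).2 (ae_of_all _ fun s hs => ?_)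
      exact (ENNReal.continuous_ofReal.tendsto _).comp (hgt s hs)
  have hl2 : ∀ n, ∫⁻ s in Ioo (0:ℝ) 1, ENNReal.ofReal (g n s) =
      ENNReal.ofReal (Real.circleAverage f 0 (R n) - f 0) := by
    intro n
    rw [← hRi n, ofReal_integral_eq_lintegral_ofReal (hgi n)]
    exact (ae_restrict_iff' measurableSet_Ioo).2 (ae_of_all _ fun s hs => hg0 n s hs)
  have hl3 : ∫⁻ s in Ioo (0:ℝ) 1, ENNReal.ofReal (G s) =
      ENNReal.ofReal (Real.circleAverage f 0 1 - f 0) := by
    refine tendsto_nhds_unique hl1 ?_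
    simp only [hl2]
    exact (ENNReal.continuous_ofReal.tendsto _).comp hcont
  have hG0 : 0 ≤ᵐ[volume.restrict (Ioo (0:ℝ) 1)] G := by
    refine (ae_restrict_iff' measurableSet_Ioo).2 (ae_of_all _ fun s hs => ?_)
    exact mul_nonneg (rlog_nonneg hs.1.le hs.2.le) (hA0 s hs)
  have hGi : IntegrableOn G (Ioo 0 1) := by
    refine ⟨hmeas, ?_⟩
    rw [hasFiniteIntegral_iff_ofReal hG0, hl3]
    exact ENNReal.ofReal_lt_top
  have hc0 : 0 ≤ Real.circleAverage f 0 1 - f 0 := by
    refine ge_of_tendsto hcont (Eventually.of_forall fun n => ?_)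
    rw [← hRi n]
    exact setIntegral_nonneg measurableSet_Ioo fun s hs => hg0 n s hs
  have hGv : ∫ s in Ioo (0:ℝ) 1, G s = Real.circleAverage f 0 1 - f 0 := by
    rw [integral_eq_lintegral_of_nonneg_ae hG0 hmeas, hl3, ENNReal.toReal_ofReal hc0]
  constructor
  · rw [intervalIntegrable_iff_integrableOn_Ioo_of_le zero_le_one]
    exact hGi
  · unfold Gn
    rw [intervalIntegral.integral_of_le zero_le_one, integral_Ioc_eq_integral_Ioo]
    exact hGv.symm

/-- lower bound, open version: `0 ≤ ψ ≤ Δ f` on the open disc -/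
theorem disc_green_open_ge {psi : ℂ → ℝ} (hfc : ContinuousOn f (closedBall 0 1))
    (hf : ∀ z ∈ ball (0:ℂ) 1, ContDiffAt ℝ 2 f z) (hpc : ContinuousOn psi (ball 0 1))
    (hp0 : ∀ z ∈ ball (0:ℂ) 1, 0 ≤ psi z) (h : ∀ z ∈ ball (0:ℂ) 1, psi z ≤ Δ f z) :
    IntervalIntegrable (fun r : ℝ => r * Real.log (1 / r) * Real.circleAverage psi 0 r)
      volume 0 1 ∧ Gn psi ≤ Real.circleAverage f 0 1 - f 0 := by
  obtain ⟨hi, he⟩ := disc_green_open hfc hf (fun z hz => (hp0 z hz).trans (h z hz))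
  have hcl : ContinuousOn (Δ f) (ball (0:ℂ) 1) := contLap hf
  have hci : ∀ {g : ℂ → ℝ}, ContinuousOn g (ball (0:ℂ) 1) → ∀ r ∈ Ioo (0:ℝ) 1,
      CircleIntegrable g 0 r := by
    intro g hg r hr
    refine ContinuousOn.circleIntegrable hr.1.le (hg.mono ?_)
    exact sphere_subset_closedBall.trans (closedBall_subset_ball hr.2)
  have hle : ∀ r ∈ Ioo (0:ℝ) 1, r * Real.log (1 / r) * Real.circleAverage psi 0 r ≤
      r * Real.log (1 / r) * Real.circleAverage (Δ f) 0 r := by
    intro r hr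
    refine mul_le_mul_of_nonneg_left ?_ (rlog_nonneg hr.1.le hr.2.le)
    refine Real.circleAverage_mono (hci hpc r hr) (hci hcl r hr) fun z hz => h z ?_
    rw [abs_of_pos hr.1] at hz
    exact closedBall_subset_ball hr.2 (sphere_subset_closedBall hz)
  have h0 : ∀ r ∈ Ioo (0:ℝ) 1, 0 ≤ r * Real.log (1 / r) * Real.circleAverage psi 0 r := by
    intro r hr
    refine mul_nonneg (rlog_nonneg hr.1.le hr.2.le) ?_
    refine Real.circleAverage_nonneg_of_nonneg fun z hz => hp0 z ?_
    rw [abs_of_pos hr.1] at hz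
    exact closedBall_subset_ball hr.2 (sphere_subset_closedBall hz)
  have hi' := (intervalIntegrable_iff_integrableOn_Ioo_of_le zero_le_one).1 hi
  have hpi : IntegrableOn (fun r : ℝ => r * Real.log (1 / r) * Real.circleAverage psi 0 r)
      (Ioo 0 1) := by
    refine Integrable.mono' hi' ?_ ?_
    · refine ContinuousOn.aestronglyMeasurable ?_ measurableSet_Ioo
      refine continuous_rlog.continuousOn.mul ?_
      refine (Real.ContinuousOn.circleAverage (s := Ico 0 1) ?_ (fun r hr => hr.1)).mono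
        Ioo_subset_Ico_self
      refine hpc.mono fun z hz => ?_
      have h2 : ‖z - 0‖ < 1 := hz.2
      rw [sub_zero] at h2
      exact mem_ball_zero_iff.2 h2
    · refine (ae_restrict_iff' measurableSet_Ioo).2 (ae_of_all _ fun r hr => ?_)
      rw [Real.norm_of_nonneg (h0 r hr)]
      exact hle r hr
  refine ⟨(intervalIntegrable_iff_integrableOn_Ioo_of_le zero_le_one).2 hpi, ?_⟩
  rw [he]
  unfold Gn
  exact intervalIntegral.integral_mono_on_of_le_Ioo zero_le_one
    ((intervalIntegrable_iff_integrableOn_Ioo_of_le zero_le_one).2 hpi) hi hle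

end P365T2.H720
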