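import Vale.Agent.P365.T2.C1844
import Vale.Agent.P365.T2.UpsBd844

/-!
# P365 / T2 / H720 / TBd: size of the logarithms in the centre route

`uc = Ac / (rho Mc)` is the value of `ur` at the centre of the circle.

* `uc_le_three`, `abs_log_uc_le`, `abs_log_ratio_le` (`|log ((ur+ε)/(uc+ε))| ≤ T + 2`),
* `Lneg_le` (`max 0 (-log ..) ≤ T + 2`), `Lneg_le_log`
  (`max 0 (-log ..) ≤ log 2 + max 0 (log (Ac/An))` unless `An = 0 < Ac`),
* continuity of `ur`, `An`, `Gr`, `mm`, `TT`, `Ly`-free data along the line of the potential of `z`.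
-/

set_option linter.all false

namespace P365T2.H720.TB

open Finset P365L P365O P365T1 Complex
open Vale.Agent.P365.T2.H789 Vale.Agent.P365.T2.H417
open P365T2.H844
open scoped RealInnerProductSpace ComplexConjugate
open P365T2.H37 (wk HH HD rho)

/-! ### real variable facts -/

theorem abs_log_sub_le {T u u0 : ℝ} (hT : 0 ≤ T) (hu : 0 ≤ u) (hu3 : u ≤ 3) (h0 : 0 ≤ u0)
    (h03 : u0 ≤ 3) :
    |Real.log ((u + Real.exp (-T)) / (u0 + Real.exp (-T)))| ≤ T + 2 := by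
  have he := Real.exp_pos (-T)
  have h4 := log_four_le
  have h2 : Real.exp (-T) ≤ 1 := Real.exp_le_one_iff.2 (by linarith)
  have k1 : -T ≤ Real.log (u + Real.exp (-T)) := by
    have h1 : Real.log (Real.exp (-T)) ≤ Real.log (u + Real.exp (-T)) :=
      Real.log_le_log he (by linarith)
    rwa [Real.log_exp] at h1
  have k2 : Real.log (u + Real.exp (-T)) ≤ Real.log 4 :=
    Real.log_le_log (by linarith) (by linarith)
  have k3 : -T ≤ Real.log (u0 + Real.exp (-T)) := by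
    have h1 : Real.log (Real.exp (-T)) ≤ Real.log (u0 + Real.exp (-T)) :=
      Real.log_le_log he (by linarith)
    rwa [Real.log_exp] at h1
  have k4 : Real.log (u0 + Real.exp (-T)) ≤ Real.log 4 :=
    Real.log_le_log (by linarith) (by linarith)
  rw [Real.log_div (by linarith : (0 : ℝ) < u + Real.exp (-T)).ne'
    (by linarith : (0 : ℝ) < u0 + Real.exp (-T)).ne', abs_le]
  constructor <;> linarith

/-- `log⁺` of the ratio of the regularised quotients, against the ratio of the numerators -/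
theorem neg_log_le_log {e A A0 M M0 : ℝ} (he : 0 < e) (hA : 0 ≤ A) (hA0 : 0 ≤ A0) (hM : 0 < M)
    (hM0 : 0 < M0) (hMM : M ≤ 2 * M0) (h : A ≠ 0 ∨ A0 = 0) :
    max 0 (-Real.log ((A / M + e) / (A0 / M0 + e))) ≤
      Real.log 2 + max 0 (Real.log (A0 / A)) := by
  have hl2 : 0 ≤ Real.log 2 := Real.log_nonneg (by norm_num)
  have hu : 0 ≤ A / M := div_nonneg hA hM.le
  have hu0 : 0 ≤ A0 / M0 := div_nonneg hA0 hM0.le
  have hp : 0 < A / M + e := by linarith
  have hp0 : 0 < A0 / M0 + e := by linarith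
  refine max_le (add_nonneg hl2 (le_max_left _ _)) ?_
  rw [← Real.log_inv, inv_div]
  -- `u₀ ≤ 2 A₀ / M`
  have h1 : A0 / M0 ≤ 2 * (A0 / M) := by
    rw [div_le_iff₀ hM0]
    have h2 : A0 = A0 / M * M := (div_mul_cancel₀ A0 hM.ne').symm
    have h3 : 0 ≤ A0 / M := div_nonneg hA0 hM.le
    calc A0 = A0 / M * M := h2
      _ ≤ A0 / M * (2 * M0) := mul_le_mul_of_nonneg_left hMM h3
      _ = 2 * (A0 / M) * M0 := by ring
  rcases h with h | h
  · have hAp : 0 < A := lt_of_le_of_ne hA (Ne.symm h)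
    have hup : 0 < A / M := div_pos hAp hM
    -- `(u₀+e)/(u+e) ≤ 2 max 1 (A₀/A)`
    have h2 : (A0 / M0 + e) / (A / M + e) ≤ 2 * max 1 (A0 / A) := by
      rw [div_le_iff₀ hp]
      have h3 : A0 / M ≤ max 1 (A0 / A) * (A / M) := by
        have h4 : A0 / M = A0 / A * (A / M) := by field_simp
        rw [h4]
        exact mul_le_mul_of_nonneg_right (le_max_right _ _) hup.le
      have h4 : e ≤ max 1 (A0 / A) * e := by
        have := le_max_left (1 : ℝ) (A0 / A)
        nlinarith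
      nlinarith
    have h5 : Real.log ((A0 / M0 + e) / (A / M + e)) ≤ Real.log (2 * max 1 (A0 / A)) :=
      Real.log_le_log (div_pos hp0 hp) h2
    have h6 : (0 : ℝ) < max 1 (A0 / A) := lt_of_lt_of_le one_pos (le_max_left _ _)
    rw [Real.log_mul two_ne_zero h6.ne'] at h5
    refine h5.trans (add_le_add le_rfl ?_)
    rcases le_total (A0 / A) 1 with h7 | h7
    · rw [max_eq_left h7, Real.log_one]
      exact le_max_left _ _
    · rw [max_eq_right h7]
      exact le_max_right _ _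
  · rw [h, zero_div, zero_add]
    have h2 : e / (A / M + e) ≤ 1 := by
      rw [div_le_one hp]
      linarith
    have h3 : Real.log (e / (A / M + e)) ≤ 0 := Real.log_nonpos (by positivity) h2
    have h4 := le_max_left (0 : ℝ) (Real.log (0 / A))
    linarith

section Site

variable {ι : Type*} [Fintype ι] [DecidableEq ι] (A : Matrix ι ι ℝ) (W : ι → ℂ)
variable {E : Type*} [NormedAddCommGroup E] [InnerProductSpace ℝ E] (Φ : ι → E)

/-- the value of `ur` at the centre of the circle -/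
noncomputable def uc (J k : ℕ) (z x : ι) : ℝ := Ac A W Φ J k z x / (rho k * Mc A W z x)

variable {A W Φ}

theorem Mc_pos (hA : A.IsSymm) (hW : ∀ x, (W x).im < 0) (z x : ι) : 0 < Mc A W z x := by
  have h1 := azc_le_Mc hA hW z x
  have h2 := (abs_le.1 (P365T2.H844.abs_pr_sub_le hA hW z x)).2
  have h3 := pr_TT_pos hA hW x
  linarith

theorem pr_le_two_Mc (hA : A.IsSymm) (hW : ∀ x, (W x).im < 0) (z x : ι) :
    pr (TT A W) x ≤ 2 * Mc A W z x := by
  have h1 := azc_le_Mc hA hW z x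
  have h2 := (abs_le.1 (P365T2.H844.abs_pr_sub_le hA hW z x)).2
  linarith

theorem An_nonneg (hW : ∀ x, (W x).im < 0) (J k : ℕ) (x : ι) : 0 ≤ An A W Φ J k x :=
  sum_nonneg fun b _ => mul_nonneg (P365T2.H37.wk_nonneg (tt_nonneg x b)) (TT_nonneg hW x b)

theorem Ac_nonneg (hW : ∀ x, (W x).im < 0) (J k : ℕ) (z x : ι) : 0 ≤ Ac A W Φ J k z x :=
  sum_nonneg fun b _ => mul_nonneg (P365T2.H37.wk_nonneg (tt_nonneg x b)) (Tc_nonneg hW z x b)

theorem Ac_le (hW : ∀ x, (W x).im < 0) {J k : ℕ} (hk : k < J + 2)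
    (ht4 : ∀ x y, tt Φ x y ≤ 4 ^ J) (z x : ι) :
    Ac A W Φ J k z x ≤ 3 * (rho k * Mc A W z x) := by
  have hr := P365T2.H37.rho_pos k
  unfold Ac Mc
  rw [mul_sum, mul_sum]
  refine sum_le_sum fun b _ => ?_
  have h2 := P365T2.H37.uk_le_three hk (tt_nonneg (Φ := Φ) x b) (ht4 x b)
  unfold P365T2.H37.uk at h2
  rw [div_le_iff₀ hr] at h2
  calc wk J k (tt Φ x b) * Tc A W z x b ≤ 3 * rho k * Tc A W z x b :=
        mul_le_mul_of_nonneg_right h2 (Tc_nonneg hW z x b)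
    _ = _ := by ring

theorem uc_nonneg (hA : A.IsSymm) (hW : ∀ x, (W x).im < 0) (J k : ℕ) (z x : ι) :
    0 ≤ uc A W Φ J k z x :=
  div_nonneg (Ac_nonneg hW J k z x) (mul_nonneg (P365T2.H37.rho_pos k).le (Mc_pos hA hW z x).le)

theorem uc_le_three (hA : A.IsSymm) (hW : ∀ x, (W x).im < 0) {J k : ℕ} (hk : k < J + 2)
    (ht4 : ∀ x y, tt Φ x y ≤ 4 ^ J) (z x : ι) : uc A W Φ J k z x ≤ 3 := by
  unfold uc
  rw [div_le_iff₀ (mul_pos (P365T2.H37.rho_pos k) (Mc_pos hA hW z x))]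
  exact Ac_le hW hk ht4 z x

theorem ur_eq_div (hA : A.IsSymm) (hW : ∀ x, (W x).im < 0) (J k : ℕ) (x : ι) :
    ur Φ (TT A W) J k x = An A W Φ J k x / (rho k * pr (TT A W) x) := by
  rw [An_eq hA hW, eq_div_iff (mul_pos (P365T2.H37.rho_pos k) (pr_TT_pos hA hW x)).ne']
  ring

/-- 844's / 37's form of the centre value -/
theorem uc_eq (J k : ℕ) (z x : ι) :
    uc A W Φ J k z x = (Ahc A W (fun b => wk J k (tt Φ x b)) z x +
      (rho k * azc A W z x) * (Rzc A W (fun b => wk J k (tt Φ x b)) z / rho k)) /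
        (rho k * Mc A W z x) := by
  have hr := (P365T2.H37.rho_pos k).ne'
  have h : Ac A W Φ J k z x = Ahc A W (fun b => wk J k (tt Φ x b)) z x +
      azc A W z x * Rzc A W (fun b => wk J k (tt Φ x b)) z :=
    sum_Tc (A := A) (W := W) (fun b => wk J k (tt Φ x b)) z x
  rw [uc, h]
  congr 2
  field_simp

variable {T : ℝ}

theorem abs_log_ur_le (hA : A.IsSymm) (hW : ∀ x, (W x).im < 0) (hT : 0 ≤ T) {J k : ℕ}
    (hk : k < J + 2) (ht4 : ∀ x y, tt Φ x y ≤ 4 ^ J) (x : ι) :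
    |Real.log (ur Φ (TT A W) J k x + Real.exp (-T))| ≤ T + 2 :=
  abs_log_le hT (ur_nonneg (TT_nonneg hW) (fun x => pr_TT_pos hA hW x) x)
    (ur_le_three hA hW hk ht4 x)

theorem abs_log_uc_le (hA : A.IsSymm) (hW : ∀ x, (W x).im < 0) (hT : 0 ≤ T) {J k : ℕ}
    (hk : k < J + 2) (ht4 : ∀ x y, tt Φ x y ≤ 4 ^ J) (z x : ι) :
    |Real.log (uc A W Φ J k z x + Real.exp (-T))| ≤ T + 2 :=
  abs_log_le hT (uc_nonneg hA hW J k z x) (uc_le_three hA hW hk ht4 z x)

/-- **`|log ((u+ε)/(u₀+ε))| ≤ T + 2`** -/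
theorem abs_log_ratio_le (hA : A.IsSymm) (hW : ∀ x, (W x).im < 0) (hT : 0 ≤ T) {J k : ℕ}
    (hk : k < J + 2) (ht4 : ∀ x y, tt Φ x y ≤ 4 ^ J) (z x : ι) :
    |Real.log ((ur Φ (TT A W) J k x + Real.exp (-T)) /
      (uc A W Φ J k z x + Real.exp (-T)))| ≤ T + 2 :=
  abs_log_sub_le hT (ur_nonneg (TT_nonneg hW) (fun x => pr_TT_pos hA hW x) x)
    (ur_le_three hA hW hk ht4 x) (uc_nonneg hA hW J k z x) (uc_le_three hA hW hk ht4 z x)

/-- **`L ≤ T + 2`** -/
theorem Lneg_le (hA : A.IsSymm) (hW : ∀ x, (W x).im < 0) (hT : 0 ≤ T) {J k : ℕ}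
    (hk : k < J + 2) (ht4 : ∀ x y, tt Φ x y ≤ 4 ^ J) (z x : ι) :
    max 0 (-Real.log ((ur Φ (TT A W) J k x + Real.exp (-T)) /
      (uc A W Φ J k z x + Real.exp (-T)))) ≤ T + 2 := by
  have h := abs_log_ratio_le (T := T) hA hW hT hk ht4 z x
  exact max_le (by linarith) ((neg_le_abs _).trans h)

/-- **`L ≤ log 2 + log⁺ (Ac / An)`** unless `An = 0 < Ac` -/
theorem Lneg_le_log (hA : A.IsSymm) (hW : ∀ x, (W x).im < 0) {ε : ℝ} (hε : 0 < ε) (J k : ℕ)
    (z x : ι) (h : An A W Φ J k x ≠ 0 ∨ Ac A W Φ J k z x = 0) :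
    max 0 (-Real.log ((ur Φ (TT A W) J k x + ε) / (uc A W Φ J k z x + ε))) ≤
      Real.log 2 + max 0 (Real.log (Ac A W Φ J k z x / An A W Φ J k x)) := by
  have hr := P365T2.H37.rho_pos k
  rw [ur_eq_div hA hW, uc]
  refine neg_log_le_log hε (An_nonneg hW J k x) (Ac_nonneg hW J k z x)
    (mul_pos hr (pr_TT_pos hA hW x)) (mul_pos hr (Mc_pos hA hW z x)) ?_ h
  have := mul_le_mul_of_nonneg_left (pr_le_two_Mc hA hW z x) hr.le
  linarith

/-! ### continuity in the potentials -/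

theorem cont_TT (hA : A.IsSymm) (a b : ι) : ContinuousOn (fun W => TT A W a b) (Hm ι) :=
  (gen_TT hA a a b).cp

theorem cont_pr (hA : A.IsSymm) (x : ι) : ContinuousOn (fun W => pr (TT A W) x) (Hm ι) :=
  (gen_pr hA x x).cp

theorem cont_An (hA : A.IsSymm) (J k : ℕ) (x : ι) :
    ContinuousOn (fun W => An A W Φ J k x) (Hm ι) := by
  unfold An
  exact continuousOn_finset_sum _ fun b _ => continuousOn_const.mul (cont_TT hA x b)

theorem cont_ur (hA : A.IsSymm) (J k : ℕ) (x : ι) :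
    ContinuousOn (fun W => ur Φ (TT A W) J k x) (Hm ι) := by
  refine ContinuousOn.congr (f := fun W => An A W Φ J k x / (rho k * pr (TT A W) x)) ?_
    fun W hW => ur_eq_div hA hW J k x
  exact (cont_An hA J k x).div (continuousOn_const.mul (cont_pr hA x))
    fun W hW => (mul_pos (P365T2.H37.rho_pos k) (pr_TT_pos hA hW x)).ne'

theorem cont_Pw (hA : A.IsSymm) (J k : ℕ) (v x : ι) :
    ContinuousOn (fun W => Pw Φ (TT A W) J k v x) (Hm ι) := by
  unfold Pw
  exact continuousOn_finset_sum _ fun b _ => ((cont_TT hA v b).div (cont_pr hA v)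
    fun W hW => (pr_TT_pos hA hW v).ne').mul continuousOn_const

theorem cont_mm (hA : A.IsSymm) (x : ι) : ContinuousOn (fun W => mm A W x) (Hm ι) :=
  HasGen.Cts_mmOn hA x

end Site

end P365T2.H720.TB
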